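import Vale.Agent.P181.H382.Defs

set_option autoImplicit false

/-!
# P181, LL: (L7), the numbers
-/

namespace Vale.Agent.P181.H382.H820

open Vale.Agent.P181.H280 (plethMult)
open Vale.Agent.P181.TL (dn2)

theorem pow_self_le (a : ℕ) : a ^ a ≤ 4 ^ a * a.factorial := by
  have h1 : (2 * a).choose a * (a.factorial * a.factorial) = (2 * a).factorial := by
    have h := Nat.choose_mul_factorial_mul_factorial (show a ≤ 2 * a by omega)
    rw [show 2 * a - a = a by omega] at h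
    rw [← h, mul_assoc]
  have h2 : (2 * a).choose a ≤ 4 ^ a := by
    have h := Nat.choose_le_two_pow (2 * a) a
    rw [pow_mul] at h
    exact h
  have h3 : a.factorial * (a + 1) ^ a ≤ (a + a).factorial := Nat.factorial_mul_pow_le_factorial
  have h4 : a.factorial * a ^ a ≤ a.factorial * (4 ^ a * a.factorial) := by
    calc a.factorial * a ^ a ≤ a.factorial * (a + 1) ^ a :=
          Nat.mul_le_mul_left _ (Nat.pow_le_pow_left (by omega) a)
      _ ≤ (a + a).factorial := h3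
      _ = (2 * a).choose a * (a.factorial * a.factorial) := by rw [h1, two_mul]
      _ ≤ 4 ^ a * (a.factorial * a.factorial) := Nat.mul_le_mul_right _ h2
      _ = a.factorial * (4 ^ a * a.factorial) := by ring
  exact Nat.le_of_mul_le_mul_left h4 (Nat.factorial_pos a)

theorem choose_bd (N a B : ℕ) (h : N ≤ B * a) : N.choose a ≤ (4 * B) ^ a := by
  have h1 : a.factorial * N.choose a ≤ a.factorial * (4 * B) ^ a := by
    calc a.factorial * N.choose a = N.descFactorial a :=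
          (Nat.descFactorial_eq_factorial_mul_choose N a).symm
      _ ≤ N ^ a := Nat.descFactorial_le_pow N a
      _ ≤ (B * a) ^ a := Nat.pow_le_pow_left h a
      _ = B ^ a * a ^ a := mul_pow _ _ _
      _ ≤ B ^ a * (4 ^ a * a.factorial) := Nat.mul_le_mul_left _ (pow_self_le a)
      _ = a.factorial * (4 * B) ^ a := by rw [mul_pow]; ring
  exact Nat.le_of_mul_le_mul_left h1 (Nat.factorial_pos a)

theorem pow_ten (a : ℕ) (h : 100 ≤ a) : a ^ 10 ≤ 2 ^ a := by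
  have h1 : a / 20 + 1 ≤ 2 ^ (a / 20) := Nat.lt_two_pow_self
  have h2 : a ≤ 20 * (a / 20 + 1) := by omega
  calc a ^ 10 ≤ (20 * (a / 20 + 1)) ^ 10 := Nat.pow_le_pow_left h2 10
    _ = 20 ^ 10 * (a / 20 + 1) ^ 10 := mul_pow _ _ _
    _ ≤ 2 ^ 50 * (2 ^ (a / 20)) ^ 10 := Nat.mul_le_mul (by norm_num) (Nat.pow_le_pow_left h1 10)
    _ = 2 ^ (50 + a / 20 * 10) := by rw [← pow_mul, ← pow_add]
    _ ≤ 2 ^ a := Nat.pow_le_pow_right (by norm_num) (by omega)

theorem growth (a b n t P D M X : ℕ) (ha : 100 ≤ a) (hP : 1 ≤ P) (hM : 1 ≤ M) (hX : 1 ≤ X)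
    (hD : 1 ≤ D) (hPa : P ≤ a) (hbP : b ≤ P * a) (hT : t ≤ M * X * a)
    (hn : (D + 1) * a ≤ D * n) (hXV : (192 * P * M) ^ D ≤ X) :
    (a + b).choose a * (a + t - 1).choose t * (a * b + 1) ^ 3 ≤ X ^ n := by
  have c1 : (a + b).choose a ≤ (8 * P) ^ a := by
    have h := choose_bd (a + b) a (2 * P) (by nlinarith)
    rwa [show 4 * (2 * P) = 8 * P by ring] at h
  have c2 : (a + t - 1).choose t ≤ (12 * M * X) ^ a := by
    have h0 : (a + t - 1).choose t ≤ (a + t).choose t := Nat.choose_le_choose t (by omega)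
    have h1 : (a + t).choose t = (a + t).choose a := by
      rw [Nat.choose_symm_add]
    have hMX : 1 ≤ M * X := Nat.mul_pos hM hX
    have h := choose_bd (a + t) a (3 * (M * X)) (by nlinarith)
    rw [h1] at h0
    rw [show 4 * (3 * (M * X)) = 12 * M * X by ring] at h
    exact le_trans h0 h
  have c3 : (a * b + 1) ^ 3 ≤ 2 ^ a := by
    have h1 : a * b + 1 ≤ 2 * a ^ 3 := by
      have h2 : a * b ≤ a ^ 3 := by
        calc a * b ≤ a * (P * a) := Nat.mul_le_mul_left _ hbP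
          _ ≤ a * (a * a) := Nat.mul_le_mul_left _ (Nat.mul_le_mul_right _ hPa)
          _ = a ^ 3 := by ring
      have h3 : 1 ≤ a ^ 3 := Nat.one_le_pow _ _ (by omega)
      omega
    calc (a * b + 1) ^ 3 ≤ (2 * a ^ 3) ^ 3 := Nat.pow_le_pow_left h1 3
      _ = 8 * a ^ 9 := by ring
      _ ≤ a * a ^ 9 := Nat.mul_le_mul_right _ (by omega)
      _ = a ^ 10 := by ring
      _ ≤ 2 ^ a := pow_ten a ha
  have hL : (a + b).choose a * (a + t - 1).choose t * (a * b + 1) ^ 3 ≤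
      (192 * P * M * X) ^ a := by
    calc (a + b).choose a * (a + t - 1).choose t * (a * b + 1) ^ 3
        ≤ (8 * P) ^ a * (12 * M * X) ^ a * 2 ^ a :=
          Nat.mul_le_mul (Nat.mul_le_mul c1 c2) c3
      _ = (192 * P * M * X) ^ a := by
          rw [← mul_pow, ← mul_pow]
          congr 1
          ring
  have hD0 : D ≠ 0 := by omega
  have hR : (192 * P * M * X) ^ a ≤ X ^ n := by
    rw [← Nat.pow_le_pow_iff_left hD0]
    calc ((192 * P * M * X) ^ a) ^ D = ((192 * P * M) ^ D * X ^ D) ^ a := by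
          rw [← mul_pow, ← pow_mul, ← pow_mul, mul_comm a D]
      _ ≤ (X * X ^ D) ^ a := Nat.pow_le_pow_left (Nat.mul_le_mul_right _ hXV) a
      _ = X ^ ((D + 1) * a) := by rw [← pow_succ', ← pow_mul]
      _ ≤ X ^ (D * n) := Nat.pow_le_pow_right hX hn
      _ = (X ^ n) ^ D := by rw [← pow_mul, mul_comm]
  exact le_trans hL hR

theorem c12 (a t P Q m W n e : ℕ) (hP : 1 ≤ P) (ha : 0 < a) (hQ : 1 ≤ Q)
    (hm : m = 8 * Q * P) (hWQ : 16 * Q ≤ W) (h2 : W * t ≤ a ^ 2) (he4 : a ≤ 2 * (Q * e))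
    (hnP : n ≤ P * a) : 8 * (t / a) ≤ e ∧ 4 * (n / m) ≤ e ∧ 8 * Q * (n / m) ≤ a := by
  have hT1 : 8 * (t / a) ≤ e := by
    have h3 : a * (t / a) ≤ t := Nat.mul_div_le t a
    have h4 : W * (t / a) * a ≤ a * a := by
      calc W * (t / a) * a = W * (a * (t / a)) := by ring
        _ ≤ W * t := Nat.mul_le_mul_left _ h3
        _ ≤ a ^ 2 := h2
        _ = a * a := sq a
    have h5 : W * (t / a) ≤ a := Nat.le_of_mul_le_mul_right h4 ha
    have h6 : (2 * Q) * (8 * (t / a)) ≤ (2 * Q) * e := by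
      calc (2 * Q) * (8 * (t / a)) = 16 * Q * (t / a) := by ring
        _ ≤ W * (t / a) := Nat.mul_le_mul_right _ hWQ
        _ ≤ a := h5
        _ ≤ 2 * (Q * e) := he4
        _ = (2 * Q) * e := by ring
    exact Nat.le_of_mul_le_mul_left h6 (by omega)
  have h3 : m * (n / m) ≤ n := Nat.mul_div_le n m
  have h4 : P * (8 * Q * (n / m)) ≤ P * a := by
    calc P * (8 * Q * (n / m)) = m * (n / m) := by rw [hm]; ring
      _ ≤ P * a := le_trans h3 hnP
  have h5 : 8 * Q * (n / m) ≤ a := Nat.le_of_mul_le_mul_left h4 hP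
  have hN1 : 4 * (n / m) ≤ e := by
    have h6 : (2 * Q) * (4 * (n / m)) ≤ (2 * Q) * e := by
      calc (2 * Q) * (4 * (n / m)) = 8 * Q * (n / m) := by ring
        _ ≤ a := h5
        _ ≤ 2 * (Q * e) := he4
        _ = (2 * Q) * e := by ring
    exact Nat.le_of_mul_le_mul_left h6 (by omega)
  exact ⟨hT1, hN1, h5⟩

theorem c13 (a t l1 l2 P Q n N e R h K : ℕ) (hP : 1 ≤ P) (hQP2 : 1000 * P ^ 2 ≤ Q)
    (hN : 8 * Q * N ≤ a) (hnP : n ≤ P * a) (hPt : 256000 * (P * t) ≤ a * a)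
    (hPa : 256000 * (P * a) ≤ a * a) (hR1 : 4 * R ≤ a) (hR2 : e ≤ 8 * R)
    (hh2 : R * h ≤ t + R) (hl2 : l2 ≤ t) (hK7 : 7000 * (P * K) ≤ 3 * a)
    (hl1 : a ^ 2 ≤ P * l1) :
    n * N + 2 * e * h + l2 + K * (5 * a - 6) + 9 * a ≤ l1 := by
  have h7 : a ^ 2 = a * a := sq a
  have i1 : 8000 * (P * (n * N)) ≤ a * a := by
    calc 8000 * (P * (n * N)) ≤ 8000 * (P * (P * a * N)) :=
          Nat.mul_le_mul_left _ (Nat.mul_le_mul_left _ (Nat.mul_le_mul_right _ hnP))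
      _ = 8 * (1000 * P ^ 2) * N * a := by ring
      _ ≤ 8 * Q * N * a :=
          Nat.mul_le_mul_right _ (Nat.mul_le_mul_right _ (Nat.mul_le_mul_left _ hQP2))
      _ ≤ a * a := Nat.mul_le_mul_right _ hN
  have i2 : P * (2 * e * h) ≤ 16 * (P * t) + 4 * (P * a) := by
    calc P * (2 * e * h) ≤ P * (2 * (8 * R) * h) :=
          Nat.mul_le_mul_left _ (Nat.mul_le_mul_right _ (Nat.mul_le_mul_left _ hR2))
      _ = 16 * P * (R * h) := by ring
      _ ≤ 16 * P * (t + R) := Nat.mul_le_mul_left _ hh2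
      _ = 16 * (P * t) + 4 * (P * (4 * R)) := by ring
      _ ≤ 16 * (P * t) + 4 * (P * a) :=
          Nat.add_le_add_left (Nat.mul_le_mul_left _ (Nat.mul_le_mul_left _ hR1)) _
  have i3 : P * l2 ≤ P * t := Nat.mul_le_mul_left _ hl2
  have i4 : 1000 * (P * (K * (5 * a - 6))) ≤ 5 * (a * a) := by
    calc 1000 * (P * (K * (5 * a - 6))) ≤ 1000 * (P * (K * (5 * a))) := by
          refine Nat.mul_le_mul_left _ (Nat.mul_le_mul_left _ (Nat.mul_le_mul_left _ ?_))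
          omega
      _ = 5 * (1000 * (P * K) * a) := by ring
      _ ≤ 5 * (a * a) := Nat.mul_le_mul_left _ (Nat.mul_le_mul_right _ (by omega))
  have h8 : P * (n * N + 2 * e * h + l2 + K * (5 * a - 6) + 9 * a) ≤ P * l1 := by
    have h9 : P * (n * N + 2 * e * h + l2 + K * (5 * a - 6) + 9 * a) =
        P * (n * N) + P * (2 * e * h) + P * l2 + P * (K * (5 * a - 6)) +
          9 * (P * a) := by ring
    rw [h9]
    generalize P * (n * N) = x1 at *
    generalize P * (2 * e * h) = x2 at *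
    generalize P * l2 = x3 at *
    generalize P * (K * (5 * a - 6)) = x4 at *
    generalize P * a = x5 at *
    generalize P * t = x6 at *
    generalize P * l1 = x7 at *
    generalize a * a = x8 at *
    omega
  exact Nat.le_of_mul_le_mul_left h8 hP

/-- the choice of `e`, `R`, `h`, `K`. -/
theorem part1 (a b t l2 P D Q W : ℕ) (ha : 0 < a) (hP : 1 ≤ P) (hD : 7 ≤ D)
    (hQ : Q = 1000 * D * P ^ 2) (hQ1 : 1000 * (D * P) ≤ Q) (hWQ : 256000 * (Q * D) ≤ W)
    (hWa : W ≤ a) (hbP : b ≤ P * a) (hl2 : l2 ≤ t) (h2 : W * t ≤ a ^ 2) :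
    ∃ e R h K : ℕ, Q * e ≤ a ∧ a ≤ 2 * (Q * e) ∧ 16 ≤ e ∧ 4 * R ≤ e ∧ e ≤ 8 * R ∧ 1 ≤ h ∧
      l2 ≤ h * R ∧ R * h ≤ t + R ∧ e * b ≤ K * (a - 12) ∧ 1000 * (D * P * K) ≤ 3 * a ∧
      8000 * (D * h) ≤ a := by
  have hDP : D ≤ D * P := Nat.le_mul_of_pos_right _ hP
  have hQD1 : Q ≤ Q * D := Nat.le_mul_of_pos_right _ (by omega)
  have hbig : 256000 * (Q * D) ≤ a := le_trans hWQ hWa
  have hQ7 : 7000 ≤ Q := by omega
  have haQ : 256000 * Q ≤ a := by omega
  have he1 : Q * (a / Q) ≤ a := Nat.mul_div_le a Q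
  have he2 : a < Q * (a / Q + 1) := Nat.lt_mul_div_succ a (by omega)
  have he3 : 16 ≤ a / Q := by
    rw [Nat.le_div_iff_mul_le (by omega)]
    omega
  generalize a / Q = e at he1 he2 he3
  have he4 : a ≤ 2 * (Q * e) := by
    have : Q * (e + 1) = Q * e + Q := by ring
    have : Q ≤ Q * e := Nat.le_mul_of_pos_right _ (by omega)
    omega
  have hR1 : 4 * (e / 4) ≤ e := by omega
  have hR2 : e ≤ 8 * (e / 4) := by omega
  have hR0 : 0 < e / 4 := by omega
  generalize e / 4 = R at hR1 hR2 hR0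
  have hh1 : l2 ≤ (l2 / R + 1) * R := by
    rw [mul_comm (l2 / R + 1) R]; exact (Nat.lt_mul_div_succ l2 hR0).le
  have hh2 : R * (l2 / R + 1) ≤ t + R := by
    rw [mul_add, mul_one]
    have := Nat.mul_div_le l2 R
    omega
  have hh0 : 1 ≤ l2 / R + 1 := Nat.le_add_left 1 _
  generalize l2 / R + 1 = h at hh1 hh2 hh0
  have hK1 : e * b ≤ (e * b / (a - 12) + 1) * (a - 12) := by
    rw [mul_comm (e * b / (a - 12) + 1) (a - 12)]
    exact (Nat.lt_mul_div_succ (e * b) (by omega)).le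
  have hK2 : (a - 12) * (e * b / (a - 12) + 1) ≤ e * b + (a - 12) := by
    rw [mul_add, mul_one]
    have := Nat.mul_div_le (e * b) (a - 12)
    omega
  generalize e * b / (a - 12) + 1 = K at hK1 hK2
  have hK3 : K ≤ 2 * P * e + 2 := by
    have h3 : K * a ≤ (2 * P * e + 2) * a := by
      have h4 : a ≤ 2 * (a - 12) := by omega
      calc K * a ≤ K * (2 * (a - 12)) := Nat.mul_le_mul_left _ h4
        _ = 2 * ((a - 12) * K) := by ring
        _ ≤ 2 * (e * b + (a - 12)) := Nat.mul_le_mul_left _ hK2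
        _ ≤ 2 * (e * (P * a) + a) :=
            Nat.mul_le_mul_left _ (Nat.add_le_add (Nat.mul_le_mul_left _ hbP) (by omega))
        _ = (2 * P * e + 2) * a := by ring
    exact Nat.le_of_mul_le_mul_right h3 ha
  have hK4 : Q * K ≤ 2 * P * a + 2 * Q := by
    calc Q * K ≤ Q * (2 * P * e + 2) := Nat.mul_le_mul_left _ hK3
      _ = 2 * P * (Q * e) + 2 * Q := by ring
      _ ≤ 2 * P * a + 2 * Q := Nat.add_le_add_right (Nat.mul_le_mul_left _ he1) _
  have hK5 : 1000 * (D * P * K) ≤ 3 * a := by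
    have h3 : P * (1000 * (D * P * K)) ≤ P * (2 * a + 2000 * (D * P)) := by
      calc P * (1000 * (D * P * K)) = Q * K := by rw [hQ]; ring
        _ ≤ 2 * P * a + 2 * Q := hK4
        _ = P * (2 * a + 2000 * (D * P)) := by rw [hQ]; ring
    have h4 := Nat.le_of_mul_le_mul_left h3 hP
    generalize D * P * K = z at *
    omega
  have hah : a * h ≤ 16 * (Q * t) + 4 * a := by
    calc a * h ≤ 2 * (Q * e) * h := Nat.mul_le_mul_right _ he4
      _ ≤ 2 * (Q * (8 * R)) * h :=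
          Nat.mul_le_mul_right _ (Nat.mul_le_mul_left _ (Nat.mul_le_mul_left _ hR2))
      _ = 16 * Q * (R * h) := by ring
      _ ≤ 16 * Q * (t + R) := Nat.mul_le_mul_left _ hh2
      _ = 16 * (Q * t) + 4 * (Q * (4 * R)) := by ring
      _ ≤ 16 * (Q * t) + 4 * (Q * e) :=
          Nat.add_le_add_left (Nat.mul_le_mul_left _ (Nat.mul_le_mul_left _ hR1)) _
      _ ≤ 16 * (Q * t) + 4 * a := Nat.add_le_add_left (Nat.mul_le_mul_left _ he1) _
  have hQt : 256000 * (Q * D) * t ≤ a ^ 2 := le_trans (Nat.mul_le_mul_right _ hWQ) h2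
  have hh3 : 8000 * (D * h) ≤ a := by
    have h3 : 8000 * (D * h) * a ≤ a * a := by
      have h4 : 16000 * (D * (a * h)) ≤ 256000 * (Q * D) * t + 64000 * D * a := by
        calc 16000 * (D * (a * h)) ≤ 16000 * (D * (16 * (Q * t) + 4 * a)) :=
              Nat.mul_le_mul_left _ (Nat.mul_le_mul_left _ hah)
          _ = 256000 * (Q * D) * t + 64000 * D * a := by ring
      have h5 : 64000 * D * a ≤ a * a := by
        refine Nat.mul_le_mul_right _ ?_
        have : D ≤ Q * D := Nat.le_mul_of_pos_left _ (by omega)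
        omega
      have h6 : 8000 * (D * h) * a * 2 = 16000 * (D * (a * h)) := by ring
      have h7 : a ^ 2 = a * a := sq a
      rw [h7] at hQt
      generalize 8000 * (D * h) * a = y1 at *
      generalize 16000 * (D * (a * h)) = y2 at *
      generalize 256000 * (Q * D) * t = y3 at *
      generalize 64000 * D * a = y4 at *
      generalize a * a = y5 at *
      omega
    exact Nat.le_of_mul_le_mul_right h3 ha
  exact ⟨e, R, h, K, he1, he4, he3, hR1, hR2, hh0, hh1, hh2, hK1, hK5, hh3⟩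

/-- the choice of `n`. -/
theorem part2 (a b P D h K : ℕ) (hP : 1 ≤ P) (hD : 7 ≤ D) (hDb : (D + 8) * a ≤ D * b)
    (hK5 : 1000 * (D * P * K) ≤ 3 * a) (hh3 : 8000 * (D * h) ≤ a) :
    ∃ n : ℕ, n + 2 * h + 9 * K = b ∧ (D + 6) * a ≤ D * n ∧ a ≤ n ∧ 7000 * (P * K) ≤ 3 * a := by
  have hK6 : 1000 * (D * K) ≤ 3 * a := by
    refine le_trans (Nat.mul_le_mul_left _ ?_) hK5
    exact Nat.mul_le_mul_right _ (Nat.le_mul_of_pos_right _ hP)
  have hK7 : 7000 * (P * K) ≤ 3 * a := by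
    refine le_trans ?_ hK5
    calc 7000 * (P * K) = 1000 * (7 * (P * K)) := by ring
      _ ≤ 1000 * (D * (P * K)) := Nat.mul_le_mul_left _ (Nat.mul_le_mul_right _ hD)
      _ = 1000 * (D * P * K) := by ring
  have hab : a ≤ b := by
    have h3 : D * a ≤ D * b := by
      have : (D + 8) * a = D * a + 8 * a := by ring
      omega
    exact Nat.le_of_mul_le_mul_left h3 (by omega)
  have hDK : D * (9 * K + 2 * h) ≤ a := by
    have h3 : D * (9 * K + 2 * h) = 9 * (D * K) + 2 * (D * h) := by ring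
    generalize D * K = z1 at *
    generalize D * h = z2 at *
    omega
  have hKh : 9 * K + 2 * h ≤ a := le_trans (Nat.le_mul_of_pos_left _ (by omega)) hDK
  obtain ⟨n, hn⟩ : ∃ n, n + (9 * K + 2 * h) = b := ⟨b - (9 * K + 2 * h), by omega⟩
  have hn2 : (D + 6) * a ≤ D * n := by
    have h3 : D * n + D * (9 * K + 2 * h) = D * b := by rw [← mul_add, hn]
    have h4 : (D + 8) * a = (D + 6) * a + 2 * a := by ring
    omega
  have han : a ≤ n := by
    have h3 : D * a ≤ D * n := by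
      have : (D + 6) * a = D * a + 6 * a := by ring
      omega
    exact Nat.le_of_mul_le_mul_left h3 (by omega)
  exact ⟨n, by omega, hn2, han, hK7⟩

/-- the choice of `X`. -/
theorem part3 (a t P D m M W n : ℕ) (ha : 0 < a) (hP : 1 ≤ P) (hD : 7 ≤ D) (hm1 : 1 ≤ m)
    (hM : M = 2 * P * m * D) (hM0 : 1 ≤ M) (hDPW : D * P ≤ W)
    (hW : M * (192 * P * M) ^ D ≤ W) (h1 : W * a ≤ t) (hn0 : 0 < n)
    (hn2 : (D + 6) * a ≤ D * n) (hnP : n ≤ P * a) :
    ∃ X : ℕ, 1 ≤ X ∧ (192 * P * M) ^ D ≤ X ∧ t ≤ M * X * a ∧ (m * (X + 1) + X) * n ≤ t ∧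
      t / n + m * (X + 1) + 1 ≤ t / a := by
  have hnmD : 0 < n * m * D := Nat.mul_pos (Nat.mul_pos hn0 hm1) (by omega)
  have hnmM : n * m * D * 2 ≤ M * a := by
    calc n * m * D * 2 ≤ P * a * m * D * 2 :=
          Nat.mul_le_mul_right _ (Nat.mul_le_mul_right _ (Nat.mul_le_mul_right _ hnP))
      _ = M * a := by rw [hM]; ring
  have hX1 : (t / (n * m * D)) * (n * m * D) ≤ t := Nat.div_mul_le_self _ _
  have hX2 : t < n * m * D * (t / (n * m * D) + 1) := Nat.lt_mul_div_succ t hnmD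
  have hXV : (192 * P * M) ^ D ≤ t / (n * m * D) := by
    rw [Nat.le_div_iff_mul_le hnmD]
    calc (192 * P * M) ^ D * (n * m * D) ≤ (192 * P * M) ^ D * (M * a) :=
          Nat.mul_le_mul_left _ (by omega)
      _ = M * (192 * P * M) ^ D * a := by ring
      _ ≤ W * a := Nat.mul_le_mul_right _ hW
      _ ≤ t := h1
  generalize t / (n * m * D) = X at hX1 hX2 hXV
  have hX0 : 1 ≤ X := by
    refine le_trans ?_ hXV
    exact Nat.one_le_pow _ _ (Nat.mul_pos (by omega) hM0)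
  have hmX : m * (X + 1) ≤ 2 * (m * X) := by
    have : m ≤ m * X := Nat.le_mul_of_pos_right _ hX0
    have : m * (X + 1) = m * X + m := by ring
    omega
  have hXmX : X ≤ m * X := Nat.le_mul_of_pos_left _ hm1
  have hT : t ≤ M * X * a := by
    calc t ≤ n * m * D * (X + 1) := hX2.le
      _ ≤ n * m * D * (2 * X) := Nat.mul_le_mul_left _ (by omega)
      _ = n * m * D * 2 * X := by ring
      _ ≤ M * a * X := Nat.mul_le_mul_right _ hnmM
      _ = M * X * a := by ring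
  refine ⟨X, hX0, hXV, hT, ?_, ?_⟩
  · calc (m * (X + 1) + X) * n ≤ (3 * (m * X)) * n := Nat.mul_le_mul_right _ (by omega)
      _ ≤ (D * (m * X)) * n := Nat.mul_le_mul_right _ (Nat.mul_le_mul_right _ (by omega))
      _ = X * (n * m * D) := by ring
      _ ≤ t := hX1
  · rw [Nat.le_div_iff_mul_le ha]
    have hA : n * (t / n) ≤ t := Nat.mul_div_le t n
    have hDn : D * n ≤ t := by
      calc D * n ≤ D * (P * a) := Nat.mul_le_mul_left _ hnP
        _ = D * P * a := by ring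
        _ ≤ W * a := Nat.mul_le_mul_right _ hDPW
        _ ≤ t := h1
    have h3 : (D + 6) * ((t / n + m * (X + 1) + 1) * a) ≤ (D + 6) * t := by
      calc (D + 6) * ((t / n + m * (X + 1) + 1) * a)
          = (D + 6) * a * (t / n + m * (X + 1) + 1) := by ring
        _ ≤ D * n * (t / n + 2 * (m * X) + 1) := Nat.mul_le_mul hn2 (by omega)
        _ = D * (n * (t / n)) + 2 * (X * (n * m * D)) + D * n := by ring
        _ ≤ D * t + 2 * t + t :=
            Nat.add_le_add (Nat.add_le_add (Nat.mul_le_mul_left _ hA)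
              (Nat.mul_le_mul_left _ hX1)) hDn
        _ ≤ (D + 6) * t := by
            have : (D + 6) * t = D * t + 6 * t := by ring
            omega
    exact Nat.le_of_mul_le_mul_left h3 (by omega)

theorem numbers (a b t l1 l2 P D Q m M W : ℕ) (ha : 0 < a) (hP : 1 ≤ P) (hD : 7 ≤ D)
    (hQ : Q = 1000 * D * P ^ 2) (hm : m = 8 * Q * P) (hM : M = 2 * P * m * D)
    (hW : M * (192 * P * M) ^ D ≤ W) (hDb : (D + 8) * a ≤ D * b) (hbP : b ≤ P * a)
    (hl1 : a ^ 2 ≤ P * l1) (hl2 : l2 ≤ t) (h1 : W * a ≤ t) (h2 : W * t ≤ a ^ 2) :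
    ∃ e n X h R K : ℕ, 2 * e ≤ a ∧ 12 < a ∧ 1 ≤ m ∧ 1 ≤ X ∧ 1 ≤ h ∧ a ≤ n ∧
      n + 2 * h + 9 * K = b ∧ e * b ≤ K * (a - 12) ∧ (m * (X + 1) + X) * n ≤ t ∧
      t / n + m * (X + 1) + 1 ≤ t / a ∧ l2 ≤ h * R ∧ t / a + n / m + 2 + R ≤ e ∧
      n * (n / m) + 2 * e * h + l2 + K * (5 * a - 6) + 9 * a ≤ l1 ∧
      (a + b).choose a * (a + t - 1).choose t * (a * b + 1) ^ 3 ≤ X ^ n := by
  have hPP : P ≤ P ^ 2 := Nat.le_self_pow (by norm_num) P
  have hP2 : 1 ≤ P ^ 2 := Nat.one_le_pow _ _ hP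
  have hQ1 : 1000 * (D * P) ≤ Q := by
    rw [hQ]
    calc 1000 * (D * P) ≤ 1000 * (D * P ^ 2) :=
          Nat.mul_le_mul_left _ (Nat.mul_le_mul_left _ hPP)
      _ = 1000 * D * P ^ 2 := by ring
  have hDP : D ≤ D * P := Nat.le_mul_of_pos_right _ hP
  have hPD : P ≤ D * P := Nat.le_mul_of_pos_left _ (by omega)
  have hQ0 : 7000 ≤ Q := by omega
  have hQP2 : 1000 * P ^ 2 ≤ Q := by
    rw [hQ]
    calc 1000 * P ^ 2 ≤ D * (1000 * P ^ 2) := Nat.le_mul_of_pos_left _ (by omega)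
      _ = 1000 * D * P ^ 2 := by ring
  have hQD1 : Q ≤ Q * D := Nat.le_mul_of_pos_right _ (by omega)
  have hm1 : 1 ≤ m := by
    rw [hm]
    exact Nat.mul_pos (by omega) hP
  have hM1 : 16 * (Q * D) ≤ M := by
    rw [hM, hm]
    calc 16 * (Q * D) ≤ 16 * (Q * D) * P ^ 2 := Nat.le_mul_of_pos_right _ hP2
      _ = 2 * P * (8 * Q * P) * D := by ring
  have hM0 : 16000 ≤ M := by omega
  have hPM : M ≤ 192 * P * M := Nat.le_mul_of_pos_left _ (by omega)
  have hV : 192 * P * M ≤ (192 * P * M) ^ D := Nat.le_self_pow (by omega) _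
  have hWM : M * M ≤ W :=
    le_trans (Nat.mul_le_mul_left M (le_trans hPM hV)) hW
  have hWQ : 256000 * (Q * D) ≤ W := by
    calc 256000 * (Q * D) = 16000 * (16 * (Q * D)) := by ring
      _ ≤ M * M := Nat.mul_le_mul hM0 hM1
      _ ≤ W := hWM
  have hWW : W * W ≤ a := by
    have h3 : W * W * a ≤ a * a := by
      calc W * W * a = W * (W * a) := by ring
        _ ≤ W * t := Nat.mul_le_mul_left _ h1
        _ ≤ a ^ 2 := h2
        _ = a * a := sq a
    exact Nat.le_of_mul_le_mul_right h3 ha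
  have hW1 : 1 ≤ W := by omega
  have hWa : W ≤ a := le_trans (Nat.le_mul_of_pos_left _ hW1) hWW
  have hbig : 256000 * (Q * D) ≤ a := le_trans hWQ hWa
  obtain ⟨e, R, h, K, he1, he4, he3, hR1, hR2, hh0, hh1, hh2, hK1, hK5, hh3⟩ :=
    part1 a b t l2 P D Q W ha hP hD hQ hQ1 hWQ hWa hbP hl2 h2
  obtain ⟨n, hn, hn2, han, hK7⟩ := part2 a b P D h K hP hD hDb hK5 hh3
  have hnP : n ≤ P * a := le_trans (by omega) hbP
  obtain ⟨X, hX0, hXV, hT, hX9, hX10⟩ := part3 a t P D m M W n ha hP hD hm1 hM (by omega)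
    (by omega) hW h1 (by omega) hn2 hnP
  obtain ⟨hT1, hN1, hN2⟩ := c12 a t P Q m W n e hP ha (by omega) hm (by omega) h2 he4 hnP
  have hea : 2 * e ≤ a := le_trans (Nat.mul_le_mul_right _ (by omega)) he1
  have hPt : 256000 * (P * t) ≤ a * a := by
    calc 256000 * (P * t) = 256000 * P * t := by ring
      _ ≤ W * t := Nat.mul_le_mul_right _ (by omega)
      _ ≤ a ^ 2 := h2
      _ = a * a := sq a
  have hPa : 256000 * (P * a) ≤ a * a := by
    calc 256000 * (P * a) = (256000 * P) * a := by ring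
      _ ≤ a * a := Nat.mul_le_mul_right _ (by omega)
  refine ⟨e, n, X, h, R, K, hea, by omega, hm1, hX0, hh0, han, hn, hK1, hX9, hX10, hh1,
    by omega, ?_, ?_⟩
  · exact c13 a t l1 l2 P Q n (n / m) e R h K hP hQP2 hN2 hnP hPt hPa (by omega) hR2 hh2 hl2
      hK7 hl1
  · refine growth a b n t P D M X (by omega) hP (by omega) hX0 (by omega) (by omega) hbP hT
      (le_trans (Nat.mul_le_mul_right _ (by omega)) hn2) hXV

theorem wEq (P D : ℕ) :
    2 * P * (8 * (1000 * D * P ^ 2) * P) * D *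
      (192 * P * (2 * P * (8 * (1000 * D * P ^ 2) * P) * D)) ^ D =
      16000 * D ^ 2 * (3072000 * D ^ 2) ^ D * P ^ (5 * D + 4) := by
  have h1 : 192 * P * (2 * P * (8 * (1000 * D * P ^ 2) * P) * D) = 3072000 * D ^ 2 * P ^ 5 := by
    ring
  rw [h1, mul_pow, ← pow_mul, pow_add]
  ring

/-- **(L7)** two long rows and an arbitrary tail, `b ≥ (1 + δ) a`. -/
theorem twoLongN (hC : CoreN) : TwoLongN := by
  obtain ⟨a₀, hC⟩ := hC
  intro δ C₀ c₀ hδ hC₀
  obtain ⟨D, hD⟩ : ∃ D : ℕ, D = ⌈8 / δ⌉₊ + 7 := ⟨_, rfl⟩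
  have hD7 : 7 ≤ D := by omega
  have hDδ : 8 ≤ (D : ℝ) * δ := by
    have h1 : 8 / δ ≤ (D : ℝ) := by
      refine le_trans (Nat.le_ceil _) ?_
      exact_mod_cast (by omega : ⌈8 / δ⌉₊ ≤ D)
    rwa [div_le_iff₀ hδ] at h1
  obtain ⟨A, hA⟩ : ∃ A : ℕ, A = 16000 * D ^ 2 * (3072000 * D ^ 2) ^ D := ⟨_, rfl⟩
  have hA0 : (0 : ℝ) ≤ A := Nat.cast_nonneg A
  have hB0 : (0 : ℝ) ≤ (C₀ + 1) ^ (5 * D + 4) := by positivity
  have hAB : (0 : ℝ) ≤ A * (C₀ + 1) ^ (5 * D + 4) := mul_nonneg hA0 hB0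
  have ha₀ : (0 : ℝ) ≤ a₀ := Nat.cast_nonneg a₀
  refine ⟨A * (C₀ + 1) ^ (5 * D + 4) + 2 * a₀ + 1, c₀ * (5 * D + 4), by linarith, ?_⟩
  generalize hCC : (A : ℝ) * (C₀ + 1) ^ (5 * D + 4) + 2 * a₀ + 1 = C
  intro a b k lam hanti hsum hCa hab hbP hl1 h1 h2
  have ha1 : (1 : ℝ) ≤ a := by linarith
  have ha : 0 < a := by
    have : (0 : ℝ) < a := by linarith
    exact_mod_cast this
  have hlog : 0 ≤ Real.log a := Real.log_nonneg ha1
  generalize hL : 1 + Real.log a = L at hbP hl1 h1 h2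
  have hL1 : 1 ≤ L := by linarith
  have hLc : 1 ≤ L ^ c₀ := one_le_pow₀ hL1
  have hLcc : 1 ≤ L ^ (c₀ * (5 * D + 4)) := one_le_pow₀ hL1
  have hCL : 0 < C₀ * L ^ c₀ := by positivity
  obtain ⟨P, hP⟩ : ∃ P : ℕ, P = ⌈C₀ * L ^ c₀⌉₊ := ⟨_, rfl⟩
  have hP1 : 1 ≤ P := by rw [hP]; exact Nat.ceil_pos.mpr hCL
  have hP2 : C₀ * L ^ c₀ ≤ (P : ℝ) := by rw [hP]; exact Nat.le_ceil _
  have hP3 : (P : ℝ) ≤ (C₀ + 1) * L ^ c₀ := by
    have h3 : (P : ℝ) < C₀ * L ^ c₀ + 1 := by rw [hP]; exact Nat.ceil_lt_add_one hCL.le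
    nlinarith
  obtain ⟨W, hW⟩ : ∃ W : ℕ, W = A * P ^ (5 * D + 4) := ⟨_, rfl⟩
  have hWC : (W : ℝ) ≤ C * L ^ (c₀ * (5 * D + 4)) := by
    have h3 : (P : ℝ) ^ (5 * D + 4) ≤ (C₀ + 1) ^ (5 * D + 4) * L ^ (c₀ * (5 * D + 4)) := by
      rw [pow_mul, ← mul_pow]
      exact pow_le_pow_left₀ (Nat.cast_nonneg P) hP3 _
    have h4 : (W : ℝ) = A * (P : ℝ) ^ (5 * D + 4) := by rw [hW]; push_cast; ring
    have h5 : (A : ℝ) * (C₀ + 1) ^ (5 * D + 4) ≤ C := by rw [← hCC]; linarith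
    rw [h4]
    calc (A : ℝ) * (P : ℝ) ^ (5 * D + 4)
        ≤ A * ((C₀ + 1) ^ (5 * D + 4) * L ^ (c₀ * (5 * D + 4))) :=
          mul_le_mul_of_nonneg_left h3 hA0
      _ = A * (C₀ + 1) ^ (5 * D + 4) * L ^ (c₀ * (5 * D + 4)) := by ring
      _ ≤ C * L ^ (c₀ * (5 * D + 4)) := mul_le_mul_of_nonneg_right h5 (by linarith)
  have haR : (0 : ℝ) ≤ a := by linarith
  have ht0 : (0 : ℝ) ≤ dn2 lam := Nat.cast_nonneg _
  have k1 : W * a ≤ dn2 lam := by
    have h3 : (W : ℝ) * a ≤ dn2 lam := le_trans (mul_le_mul_of_nonneg_right hWC haR) h1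
    exact_mod_cast h3
  have k2 : W * dn2 lam ≤ a ^ 2 := by
    have h3 : (W : ℝ) * dn2 lam ≤ (a : ℝ) ^ 2 :=
      le_trans (mul_le_mul_of_nonneg_right hWC ht0) h2
    exact_mod_cast h3
  have k3 : b ≤ P * a := by
    have h3 : (b : ℝ) ≤ P * a := le_trans hbP (mul_le_mul_of_nonneg_right hP2 haR)
    exact_mod_cast h3
  have k4 : a ^ 2 ≤ P * lam 1 := by
    have h3 : (a : ℝ) ^ 2 ≤ P * lam 1 :=
      le_trans hl1 (mul_le_mul_of_nonneg_right hP2 (Nat.cast_nonneg _))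
    exact_mod_cast h3
  have k5 : (D + 8) * a ≤ D * b := by
    have h3 : ((D : ℝ) + 8) * a ≤ D * b := by
      have hD0 : (0 : ℝ) ≤ D := Nat.cast_nonneg D
      calc ((D : ℝ) + 8) * a ≤ (D + D * δ) * a :=
            mul_le_mul_of_nonneg_right (by linarith) haR
        _ = D * ((1 + δ) * a) := by ring
        _ ≤ D * b := mul_le_mul_of_nonneg_left hab hD0
    exact_mod_cast h3
  have k6 : 2 * a₀ ≤ a := by
    have h3 : 2 * (a₀ : ℝ) ≤ a := by
      have : 2 * (a₀ : ℝ) ≤ C := by rw [← hCC]; linarith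
      linarith
    exact_mod_cast h3
  have k7 : lam 2 ≤ dn2 lam :=
    Finset.single_le_sum (f := fun i : Fin (k + 1) => lam i.succ.succ)
      (fun _ _ => Nat.zero_le _) (Finset.mem_univ 0)
  have k8 : 2 * P * (8 * (1000 * D * P ^ 2) * P) * D *
      (192 * P * (2 * P * (8 * (1000 * D * P ^ 2) * P) * D)) ^ D ≤ W := by
    rw [wEq, hW, hA]
  obtain ⟨e, n, X, h, R, K, g1, g2, g3, g4, g5, g6, g7, g8, g9, g10, g11, g12, g13, g14⟩ :=
    numbers a b (dn2 lam) (lam 1) (lam 2) P D (1000 * D * P ^ 2) (8 * (1000 * D * P ^ 2) * P)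
      (2 * P * (8 * (1000 * D * P ^ 2) * P) * D) W ha hP1 hD7 rfl rfl rfl k8 k5 k3 k4 k7 k1 k2
  exact hC a b k e n (8 * (1000 * D * P ^ 2) * P) X h R K lam (hanti (Fin.zero_le 1)) hsum
    (by omega) g2 g3 g4 g5 g6 g7 g8 g9 g10 g11 g12 g13 g14

end Vale.Agent.P181.H382.H820
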