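import Vale.Agent.P181.H382.H112.Defs
import Vale.Agent.P181.H382.H820.L7

set_option autoImplicit false

/-!
# P181, LS: (S4), the numbers
-/

namespace Vale.Agent.P181.H382.H820

open Vale.Agent.P181.H280 (plethMult)
open Vale.Agent.P181.TL (dn2)
open Vale.Agent.P181.H382.H112 (CoreS TwoLongS)

theorem pow_bd (a b : ℕ) (hab : a ≤ b) : b ^ a ≤ a ^ a * 4 ^ b := by
  have h1 : b.factorial * (b + 1) ^ a ≤ (b + a).factorial := Nat.factorial_mul_pow_le_factorial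
  have h2 : (b + a).choose b * (b.factorial * a.factorial) = (b + a).factorial := by
    have h := Nat.choose_mul_factorial_mul_factorial (show b ≤ b + a by omega)
    rw [show b + a - b = a by omega] at h
    rw [← h, mul_assoc]
  have h3 : (b + a).choose b ≤ 2 ^ (b + a) := Nat.choose_le_two_pow (b + a) b
  have h4 : 2 ^ (b + a) ≤ 4 ^ b := by
    rw [show (4 : ℕ) = 2 ^ 2 by norm_num, ← pow_mul]
    exact Nat.pow_le_pow_right (by norm_num) (by omega)
  have h5 : b.factorial * b ^ a ≤ b.factorial * (a ^ a * 4 ^ b) := by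
    calc b.factorial * b ^ a ≤ b.factorial * (b + 1) ^ a :=
          Nat.mul_le_mul_left _ (Nat.pow_le_pow_left (by omega) a)
      _ ≤ (b + a).factorial := h1
      _ = (b + a).choose b * (b.factorial * a.factorial) := h2.symm
      _ ≤ 4 ^ b * (b.factorial * a ^ a) :=
          Nat.mul_le_mul (le_trans h3 h4) (Nat.mul_le_mul_left _ (Nat.factorial_le_pow a))
      _ = b.factorial * (a ^ a * 4 ^ b) := by ring
  exact Nat.le_of_mul_le_mul_left h5 (Nat.factorial_pos b)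

theorem gap_pow (X Y n a D : ℕ) (hX : 1 ≤ X) (hn : (D + 6) * a ≤ D * n) (han : a ≤ n)
    (hV : Y ^ (D + 6) ≤ X) : X ^ a * Y ^ n ≤ X ^ n := by
  obtain ⟨d, hd⟩ : ∃ d, n = a + d := ⟨n - a, by omega⟩
  have h1 : n ≤ (D + 6) * d := by
    have h2 : (D + 6) * n = (D + 6) * a + (D + 6) * d := by rw [hd]; ring
    have h3 : (D + 6) * n = D * n + 6 * n := by ring
    omega
  have h4 : Y ^ n ≤ X ^ d := by
    rw [← Nat.pow_le_pow_iff_left (show D + 6 ≠ 0 by omega)]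
    calc (Y ^ n) ^ (D + 6) = (Y ^ (D + 6)) ^ n := by rw [← pow_mul, ← pow_mul, mul_comm]
      _ ≤ X ^ n := Nat.pow_le_pow_left hV n
      _ ≤ X ^ ((D + 6) * d) := Nat.pow_le_pow_right hX h1
      _ = (X ^ d) ^ (D + 6) := by rw [← pow_mul, mul_comm]
  calc X ^ a * Y ^ n ≤ X ^ a * X ^ d := Nat.mul_le_mul_left _ h4
    _ = X ^ n := by rw [← pow_add, ← hd]

theorem growthS (a b n t l1 D Z X : ℕ) (hb : 100 ≤ b) (hZ : 1 ≤ Z) (hX : 1 ≤ X)
    (hab : a ≤ b) (hal : a ≤ l1) (hat : a ≤ t) (hT : t * l1 ≤ Z * X * b ^ 3)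
    (hn : (D + 6) * a ≤ D * n) (han : a ≤ n) (hbn : b ≤ 2 * n)
    (hXV : (3604480 * Z) ^ (D + 6) ≤ X) :
    (55 * ((l1 + a) * (t + a))) ^ a * (a * b + 1) ^ 3 ≤ a ^ (3 * a) * X ^ n := by
  have c1 : 55 * ((l1 + a) * (t + a)) ≤ 220 * Z * X * b ^ 3 := by
    have h1 : (l1 + a) * (t + a) ≤ (2 * l1) * (2 * t) := Nat.mul_le_mul (by omega) (by omega)
    have h2 : (2 * l1) * (2 * t) = 4 * (t * l1) := by ring
    have h3 : 220 * Z * X * b ^ 3 = 220 * (Z * X * b ^ 3) := by ring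
    omega
  have c2 : (55 * ((l1 + a) * (t + a))) ^ a ≤
      (220 * Z) ^ n * X ^ a * (a ^ (3 * a) * 4096 ^ n) := by
    calc (55 * ((l1 + a) * (t + a))) ^ a ≤ (220 * Z * X * b ^ 3) ^ a :=
          Nat.pow_le_pow_left c1 a
      _ = (220 * Z) ^ a * X ^ a * (b ^ a) ^ 3 := by
          rw [mul_pow, mul_pow, ← pow_mul, ← pow_mul, mul_comm 3 a]
      _ ≤ (220 * Z) ^ n * X ^ a * (a ^ a * 4 ^ b) ^ 3 :=
          Nat.mul_le_mul (Nat.mul_le_mul_right _ (Nat.pow_le_pow_right (by omega) han))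
            (Nat.pow_le_pow_left (pow_bd a b hab) 3)
      _ ≤ (220 * Z) ^ n * X ^ a * (a ^ (3 * a) * 4096 ^ n) := by
          refine Nat.mul_le_mul_left _ ?_
          rw [mul_pow, ← pow_mul, mul_comm a 3]
          refine Nat.mul_le_mul_left _ ?_
          rw [← pow_mul]
          calc 4 ^ (b * 3) ≤ 4 ^ (6 * n) := Nat.pow_le_pow_right (by norm_num) (by omega)
            _ = 4096 ^ n := by rw [pow_mul]; norm_num
  have c3 : (a * b + 1) ^ 3 ≤ 4 ^ n := by
    have h1 : a * b + 1 ≤ 2 * b ^ 2 := by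
      have h2 : a * b ≤ b * b := Nat.mul_le_mul_right _ hab
      have h3 : 1 ≤ b * b := Nat.mul_pos (by omega) (by omega)
      rw [sq]
      omega
    calc (a * b + 1) ^ 3 ≤ (2 * b ^ 2) ^ 3 := Nat.pow_le_pow_left h1 3
      _ = 8 * b ^ 6 := by ring
      _ ≤ b ^ 4 * b ^ 6 := by
          refine Nat.mul_le_mul_right _ ?_
          calc 8 ≤ b := by omega
            _ ≤ b ^ 4 := Nat.le_self_pow (by norm_num) b
      _ = b ^ 10 := by ring
      _ ≤ 2 ^ b := pow_ten b hb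
      _ ≤ 2 ^ (2 * n) := Nat.pow_le_pow_right (by norm_num) hbn
      _ = 4 ^ n := by rw [pow_mul]; norm_num
  calc (55 * ((l1 + a) * (t + a))) ^ a * (a * b + 1) ^ 3
      ≤ (220 * Z) ^ n * X ^ a * (a ^ (3 * a) * 4096 ^ n) * 4 ^ n := Nat.mul_le_mul c2 c3
    _ = a ^ (3 * a) * (X ^ a * ((220 * Z) ^ n * 4096 ^ n * 4 ^ n)) := by ring
    _ = a ^ (3 * a) * (X ^ a * (3604480 * Z) ^ n) := by
        have h9 : (220 * Z) ^ n * 4096 ^ n * 4 ^ n = (3604480 * Z) ^ n := by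
          rw [← mul_pow, ← mul_pow]
          congr 1
          ring
        rw [h9]
    _ ≤ a ^ (3 * a) * X ^ n := Nat.mul_le_mul_left _ (gap_pow X _ n a D hX hn han hXV)

/-- the choice of `e`, `R`, `h`, `K`. -/
theorem partS1 (a b t l1 l2 P D W : ℕ) (ha : 0 < a) (hP : 1 ≤ P) (hD : 7 ≤ D)
    (hab : a ≤ b) (hbP : b ≤ P * a) (hl1 : a ^ 2 ≤ P * l1) (hl1' : 2 * l1 ≤ a * b)
    (hl2 : l2 ≤ t) (hW : 100000000 * (D * D * (P * P)) ≤ W) (hWa : W ≤ a)
    (h2 : W * t ≤ a ^ 2) :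
    ∃ e R h K : ℕ, 1000 * D * b * e ≤ l1 ∧ l1 ≤ 2 * (1000 * D * b * e) ∧ 16 ≤ e ∧ 2 * e ≤ a ∧
      4 * R ≤ e ∧ e ≤ 8 * R ∧ 1 ≤ h ∧ l2 ≤ h * R ∧ R * h ≤ t + R ∧ e * b ≤ K * (a - 12) ∧
      a * K ≤ 2 * (e * b) + 2 * a ∧ 1000 * (D * K) ≤ b + 2000 * D ∧
      200 * (D * h) ≤ b + 800 * D := by
  have hb : 0 < b := by omega
  have hDD : D ≤ D * D := Nat.le_mul_of_pos_left _ (by omega)
  have hPP : P ≤ P * P := Nat.le_mul_of_pos_left _ hP
  have hDP1 : D * (P * P) ≤ D * D * (P * P) := Nat.mul_le_mul_right _ hDD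
  have hDP2 : D * D * P ≤ D * D * (P * P) := Nat.mul_le_mul_left _ hPP
  have hDP3 : 1 ≤ D * (P * P) := Nat.mul_pos (by omega) (Nat.mul_pos hP hP)
  have hE : 0 < 1000 * D * b := Nat.mul_pos (by omega) hb
  have he1 : 1000 * D * b * (l1 / (1000 * D * b)) ≤ l1 := Nat.mul_div_le l1 _
  have he2 : l1 < 1000 * D * b * (l1 / (1000 * D * b) + 1) := Nat.lt_mul_div_succ l1 hE
  have he3 : 16 ≤ l1 / (1000 * D * b) := by
    rw [Nat.le_div_iff_mul_le hE]
    have h3 : P * (16 * (1000 * D * b)) ≤ P * l1 := by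
      calc P * (16 * (1000 * D * b)) ≤ P * (16 * (1000 * D * (P * a))) :=
            Nat.mul_le_mul_left _ (Nat.mul_le_mul_left _ (Nat.mul_le_mul_left _ hbP))
        _ = 16000 * (D * (P * P)) * a := by ring
        _ ≤ a * a := Nat.mul_le_mul_right _ (by omega)
        _ = a ^ 2 := (sq a).symm
        _ ≤ P * l1 := hl1
    exact Nat.le_of_mul_le_mul_left h3 hP
  generalize l1 / (1000 * D * b) = e at he1 he2 he3
  have he4 : l1 ≤ 2 * (1000 * D * b * e) := by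
    have h3 : 1000 * D * b * (e + 1) = 1000 * D * b * e + 1000 * D * b := by ring
    have h4 : 1000 * D * b ≤ 1000 * D * b * e := Nat.le_mul_of_pos_right _ (by omega)
    omega
  have he5 : 2 * (1000 * D * e) ≤ a := by
    have h3 : 2 * (1000 * D * e) * b ≤ a * b := by
      calc 2 * (1000 * D * e) * b = 2 * (1000 * D * b * e) := by ring
        _ ≤ 2 * l1 := Nat.mul_le_mul_left _ he1
        _ ≤ a * b := hl1'
    exact Nat.le_of_mul_le_mul_right h3 hb
  have hea : 2 * e ≤ a := by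
    refine le_trans (Nat.mul_le_mul_left _ ?_) he5
    exact Nat.le_mul_of_pos_left _ (by omega)
  have hR1 : 4 * (e / 4) ≤ e := by omega
  have hR2 : e ≤ 8 * (e / 4) := by omega
  have hR0 : 0 < e / 4 := by omega
  generalize e / 4 = R at hR1 hR2 hR0
  have hh1 : l2 ≤ (l2 / R + 1) * R := by
    rw [mul_comm (l2 / R + 1) R]; exact (Nat.lt_mul_div_succ l2 hR0).le
  have hh2 : R * (l2 / R + 1) ≤ t + R := by
    rw [mul_add, mul_one]
    have := Nat.mul_div_le l2 R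
    omega
  have hh0 : 1 ≤ l2 / R + 1 := Nat.le_add_left 1 _
  generalize l2 / R + 1 = h at hh1 hh2 hh0
  have hK1 : e * b ≤ (e * b / (a - 12) + 1) * (a - 12) := by
    rw [mul_comm (e * b / (a - 12) + 1) (a - 12)]
    exact (Nat.lt_mul_div_succ (e * b) (by omega)).le
  have hK2 : (a - 12) * (e * b / (a - 12) + 1) ≤ e * b + (a - 12) := by
    rw [mul_add, mul_one]
    have := Nat.mul_div_le (e * b) (a - 12)
    omega
  generalize e * b / (a - 12) + 1 = K at hK1 hK2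
  have hK3 : a * K ≤ 2 * (e * b) + 2 * a := by
    have h4 : a ≤ 2 * (a - 12) := by omega
    calc a * K ≤ 2 * (a - 12) * K := Nat.mul_le_mul_right _ h4
      _ = 2 * ((a - 12) * K) := by ring
      _ ≤ 2 * (e * b + (a - 12)) := Nat.mul_le_mul_left _ hK2
      _ ≤ 2 * (e * b) + 2 * a := by omega
  have hK5 : 1000 * (D * K) ≤ b + 2000 * D := by
    have h3 : a * (1000 * (D * K)) ≤ a * (b + 2000 * D) := by
      calc a * (1000 * (D * K)) = 1000 * D * (a * K) := by ring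
        _ ≤ 1000 * D * (2 * (e * b) + 2 * a) := Nat.mul_le_mul_left _ hK3
        _ = 2 * (1000 * D * b * e) + 2000 * D * a := by ring
        _ ≤ 2 * l1 + 2000 * D * a := Nat.add_le_add_right (Nat.mul_le_mul_left _ he1) _
        _ ≤ a * b + 2000 * D * a := Nat.add_le_add_right hl1' _
        _ = a * (b + 2000 * D) := by ring
    exact Nat.le_of_mul_le_mul_left h3 ha
  have htl : 3200000 * (D * D) * t ≤ l1 := by
    have h3 : P * (3200000 * (D * D) * t) ≤ P * l1 := by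
      calc P * (3200000 * (D * D) * t) = 3200000 * (D * D * P) * t := by ring
        _ ≤ W * t := Nat.mul_le_mul_right _ (by omega)
        _ ≤ a ^ 2 := h2
        _ ≤ P * l1 := hl1
    exact Nat.le_of_mul_le_mul_left h3 hP
  have hl0 : 0 < l1 := by
    rcases Nat.eq_zero_or_pos l1 with h3 | h3
    · exfalso
      rw [h3, mul_zero] at hl1
      have : 0 < a ^ 2 := Nat.pow_pos ha
      omega
    · exact h3
  have hh5 : 200 * (D * h) ≤ b + 800 * D := by
    have h3 : l1 * (200 * (D * h)) ≤ l1 * (b + 800 * D) := by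
      calc l1 * (200 * (D * h)) ≤ 2 * (1000 * D * b * e) * (200 * (D * h)) :=
            Nat.mul_le_mul_right _ he4
        _ ≤ 2 * (1000 * D * b * (8 * R)) * (200 * (D * h)) :=
            Nat.mul_le_mul_right _ (Nat.mul_le_mul_left _ (Nat.mul_le_mul_left _ hR2))
        _ = 3200000 * (D * D) * b * (R * h) := by ring
        _ ≤ 3200000 * (D * D) * b * (t + R) := Nat.mul_le_mul_left _ hh2
        _ = b * (3200000 * (D * D) * t) + 800 * D * (1000 * D * b * (4 * R)) := by ring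
        _ ≤ b * l1 + 800 * D * (1000 * D * b * e) :=
            Nat.add_le_add (Nat.mul_le_mul_left _ htl)
              (Nat.mul_le_mul_left _ (Nat.mul_le_mul_left _ hR1))
        _ ≤ b * l1 + 800 * D * l1 := Nat.add_le_add_left (Nat.mul_le_mul_left _ he1) _
        _ = l1 * (b + 800 * D) := by ring
    exact Nat.le_of_mul_le_mul_left h3 hl0
  exact ⟨e, R, h, K, he1, he4, he3, hea, hR1, hR2, hh0, hh1, hh2, hK1, hK3, hK5, hh5⟩

/-- the choice of `n`. -/
theorem partS2 (a b D h K : ℕ) (hD : 7 ≤ D) (hDb : (D + 8) * a ≤ D * b)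
    (hbig : 1000 * D ≤ b) (hK5 : 1000 * (D * K) ≤ b + 2000 * D)
    (hh5 : 200 * (D * h) ≤ b + 800 * D) :
    ∃ n : ℕ, n + 2 * h + 9 * K = b ∧ (D + 6) * a ≤ D * n ∧ a ≤ n ∧ b ≤ 2 * n := by
  have hDK : 2 * (D * (9 * K + 2 * h)) ≤ b := by
    have h3 : D * (9 * K + 2 * h) = 9 * (D * K) + 2 * (D * h) := by ring
    generalize D * K = z1 at *
    generalize D * h = z2 at *
    omega
  have hKh : 2 * (9 * K + 2 * h) ≤ b := by
    refine le_trans (Nat.mul_le_mul_left _ ?_) hDK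
    exact Nat.le_mul_of_pos_left _ (by omega)
  obtain ⟨n, hn⟩ : ∃ n, n + (9 * K + 2 * h) = b := ⟨b - (9 * K + 2 * h), by omega⟩
  generalize hu : 9 * K + 2 * h = u at *
  have hn2 : (D + 6) * a ≤ D * n := by
    have h3 : (D + 8) * ((D + 6) * a) ≤ (D + 8) * (D * n) := by
      have h4 : (D + 8) * ((D + 6) * a) ≤ (D + 6) * (D * b) := by
        calc (D + 8) * ((D + 6) * a) = (D + 6) * ((D + 8) * a) := by ring
          _ ≤ (D + 6) * (D * b) := Nat.mul_le_mul_left _ hDb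
      have h5 : D * b = D * n + D * u := by rw [← mul_add, hn]
      have h6 : (D + 8) * (D * u) ≤ 2 * (D * b) := by
        calc (D + 8) * (D * u) ≤ (3 * D) * (D * u) := Nat.mul_le_mul_right _ (by omega)
          _ = D * (3 * (D * u)) := by ring
          _ ≤ D * (2 * b) := Nat.mul_le_mul_left _ (by omega)
          _ = 2 * (D * b) := by ring
      have h7 : (D + 6) * (D * b) + 2 * (D * b) = (D + 8) * (D * n) + (D + 8) * (D * u) := by
        rw [← mul_add, ← h5]; ring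
      generalize (D + 8) * ((D + 6) * a) = w1 at *
      generalize (D + 8) * (D * n) = w2 at *
      generalize (D + 8) * (D * u) = w3 at *
      generalize (D + 6) * (D * b) = w4 at *
      omega
    exact Nat.le_of_mul_le_mul_left h3 (by omega)
  have han : a ≤ n := by
    have h3 : D * a ≤ D * n := by
      have : (D + 6) * a = D * a + 6 * a := by ring
      omega
    exact Nat.le_of_mul_le_mul_left h3 (by omega)
  exact ⟨n, by omega, hn2, han, by omega⟩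

/-- the choice of `m` and `X`. -/
theorem partS3 (a b t l1 D V n : ℕ) (ha : 0 < a) (hD : 7 ≤ D) (hab : a ≤ b) (hl0 : 0 < l1)
    (hV : 1 ≤ V) (hlb : l1 ≤ b ^ 2)
    (h3 : D * (8000 * D + 1) * V * b ^ 3 ≤ l1 * t) (hn0 : 0 < n)
    (hn2 : (D + 6) * a ≤ D * n) (hnb : n ≤ b) :
    ∃ m X : ℕ, 1 ≤ m ∧ 8000 * D * b ^ 2 ≤ l1 * m ∧ 1 ≤ X ∧ V ≤ X ∧
      t * l1 ≤ 2 * D * (8000 * D + 1) * X * b ^ 3 ∧ (m * (X + 1) + X) * n ≤ t ∧
      t / n + m * (X + 1) + 1 ≤ t / a ∧ D * b ≤ t := by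
  have hm1 : 1 ≤ 8000 * D * b ^ 2 / l1 + 1 := Nat.le_add_left 1 _
  have hm2 : 8000 * D * b ^ 2 ≤ l1 * (8000 * D * b ^ 2 / l1 + 1) :=
    (Nat.lt_mul_div_succ _ hl0).le
  have hm3 : l1 * (8000 * D * b ^ 2 / l1 + 1) ≤ (8000 * D + 1) * b ^ 2 := by
    have h4 := Nat.mul_div_le (8000 * D * b ^ 2) l1
    calc l1 * (8000 * D * b ^ 2 / l1 + 1) = l1 * (8000 * D * b ^ 2 / l1) + l1 := by ring
      _ ≤ 8000 * D * b ^ 2 + b ^ 2 := Nat.add_le_add h4 hlb
      _ = (8000 * D + 1) * b ^ 2 := by ring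
  generalize 8000 * D * b ^ 2 / l1 + 1 = m at hm1 hm2 hm3
  have hnmD : 0 < n * m * D := Nat.mul_pos (Nat.mul_pos hn0 hm1) (by omega)
  have hX1 : (t / (n * m * D)) * (n * m * D) ≤ t := Nat.div_mul_le_self _ _
  have hX2 : t < n * m * D * (t / (n * m * D) + 1) := Nat.lt_mul_div_succ t hnmD
  have hXV : V ≤ t / (n * m * D) := by
    rw [Nat.le_div_iff_mul_le hnmD]
    have h4 : l1 * (V * (n * m * D)) ≤ l1 * t := by
      calc l1 * (V * (n * m * D)) = V * n * D * (l1 * m) := by ring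
        _ ≤ V * n * D * ((8000 * D + 1) * b ^ 2) := Nat.mul_le_mul_left _ hm3
        _ ≤ V * b * D * ((8000 * D + 1) * b ^ 2) :=
            Nat.mul_le_mul_right _ (Nat.mul_le_mul_right _ (Nat.mul_le_mul_left _ hnb))
        _ = D * (8000 * D + 1) * V * b ^ 3 := by ring
        _ ≤ l1 * t := h3
    exact Nat.le_of_mul_le_mul_left h4 hl0
  generalize t / (n * m * D) = X at hX1 hX2 hXV
  have hX0 : 1 ≤ X := le_trans hV hXV
  have hmX : m * (X + 1) ≤ 2 * (m * X) := by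
    have : m ≤ m * X := Nat.le_mul_of_pos_right _ hX0
    have : m * (X + 1) = m * X + m := by ring
    omega
  have hXmX : X ≤ m * X := Nat.le_mul_of_pos_left _ hm1
  have hT : t * l1 ≤ 2 * D * (8000 * D + 1) * X * b ^ 3 := by
    calc t * l1 ≤ n * m * D * (X + 1) * l1 := Nat.mul_le_mul_right _ hX2.le
      _ ≤ n * m * D * (2 * X) * l1 :=
          Nat.mul_le_mul_right _ (Nat.mul_le_mul_left _ (by omega))
      _ = 2 * D * X * n * (l1 * m) := by ring
      _ ≤ 2 * D * X * b * ((8000 * D + 1) * b ^ 2) :=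
          Nat.mul_le_mul (Nat.mul_le_mul_left _ hnb) hm3
      _ = 2 * D * (8000 * D + 1) * X * b ^ 3 := by ring
  have hDb : D * b ≤ t := by
    have h4 : b ^ 2 * (D * b) ≤ b ^ 2 * t := by
      calc b ^ 2 * (D * b) = D * b ^ 3 := by ring
        _ ≤ D * (8000 * D + 1) * V * b ^ 3 := by
            refine Nat.mul_le_mul_right _ ?_
            calc D ≤ D * (8000 * D + 1) := Nat.le_mul_of_pos_right _ (by omega)
              _ ≤ D * (8000 * D + 1) * V := Nat.le_mul_of_pos_right _ hV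
        _ ≤ l1 * t := h3
        _ ≤ b ^ 2 * t := Nat.mul_le_mul_right _ hlb
    exact Nat.le_of_mul_le_mul_left h4 (Nat.pow_pos (by omega))
  refine ⟨m, X, hm1, hm2, hX0, hXV, hT, ?_, ?_, hDb⟩
  · calc (m * (X + 1) + X) * n ≤ (3 * (m * X)) * n := Nat.mul_le_mul_right _ (by omega)
      _ ≤ (D * (m * X)) * n := Nat.mul_le_mul_right _ (Nat.mul_le_mul_right _ (by omega))
      _ = X * (n * m * D) := by ring
      _ ≤ t := hX1
  · rw [Nat.le_div_iff_mul_le ha]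
    have hA : n * (t / n) ≤ t := Nat.mul_div_le t n
    have hDn : D * n ≤ t := le_trans (Nat.mul_le_mul_left _ hnb) hDb
    have h3 : (D + 6) * ((t / n + m * (X + 1) + 1) * a) ≤ (D + 6) * t := by
      calc (D + 6) * ((t / n + m * (X + 1) + 1) * a)
          = (D + 6) * a * (t / n + m * (X + 1) + 1) := by ring
        _ ≤ D * n * (t / n + 2 * (m * X) + 1) := Nat.mul_le_mul hn2 (by omega)
        _ = D * (n * (t / n)) + 2 * (X * (n * m * D)) + D * n := by ring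
        _ ≤ D * t + 2 * t + t :=
            Nat.add_le_add (Nat.add_le_add (Nat.mul_le_mul_left _ hA)
              (Nat.mul_le_mul_left _ hX1)) hDn
        _ ≤ (D + 6) * t := by
            have : (D + 6) * t = D * t + 6 * t := by ring
            omega
    exact Nat.le_of_mul_le_mul_left h3 (by omega)

theorem condS (a b t l1 l2 P D W n m e R h K : ℕ) (ha : 0 < a) (hP : 1 ≤ P) (hD : 7 ≤ D)
    (hbP : b ≤ P * a) (hl1 : a ^ 2 ≤ P * l1) (hl2 : l2 ≤ t)
    (hW : 100000000 * (D * D * (P * P)) ≤ W) (hWa : W ≤ a) (h2 : W * t ≤ a ^ 2) (hl0 : 0 < l1)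
    (hab : a ≤ b) (hnb : n ≤ b) (he1 : 1000 * D * b * e ≤ l1)
    (he4 : l1 ≤ 2 * (1000 * D * b * e)) (he3 : 16 ≤ e) (hR1 : 4 * R ≤ e) (hR2 : e ≤ 8 * R)
    (hh2 : R * h ≤ t + R) (hK3 : a * K ≤ 2 * (e * b) + 2 * a)
    (hm2 : 8000 * D * b ^ 2 ≤ l1 * m) :
    t / a + n / m + 2 + R ≤ e ∧
      n * (n / m) + 2 * e * h + l2 + K * (5 * a - 6) + 9 * a ≤ l1 := by
  have hb : 0 < b := by omega
  have hDD : D ≤ D * D := Nat.le_mul_of_pos_left _ (by omega)
  have hPP : P ≤ P * P := Nat.le_mul_of_pos_left _ hP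
  have hDP1 : D * (P * P) ≤ D * D * (P * P) := Nat.mul_le_mul_right _ hDD
  have hDP4 : P * P ≤ D * (P * P) := Nat.le_mul_of_pos_left _ (by omega)
  have hN0 : 8000 * D * b * (n / m) ≤ l1 := by
    have h4 : m * (n / m) ≤ b := le_trans (Nat.mul_div_le n m) hnb
    have h5 : b * (8000 * D * b * (n / m)) ≤ b * l1 := by
      calc b * (8000 * D * b * (n / m)) = 8000 * D * b ^ 2 * (n / m) := by ring
        _ ≤ l1 * m * (n / m) := Nat.mul_le_mul_right _ hm2
        _ = l1 * (m * (n / m)) := by ring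
        _ ≤ l1 * b := Nat.mul_le_mul_left _ h4
        _ = b * l1 := mul_comm _ _
    exact Nat.le_of_mul_le_mul_left h5 hb
  have hN1 : 4 * (n / m) ≤ e := by
    have h5 : 2000 * D * b * (4 * (n / m)) ≤ 2000 * D * b * e := by
      calc 2000 * D * b * (4 * (n / m)) = 8000 * D * b * (n / m) := by ring
        _ ≤ l1 := hN0
        _ ≤ 2 * (1000 * D * b * e) := he4
        _ = 2000 * D * b * e := by ring
    exact Nat.le_of_mul_le_mul_left h5 (Nat.mul_pos (by omega) hb)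
  have hT1 : 8 * (t / a) ≤ e := by
    have h3 : a * (t / a) ≤ t := Nat.mul_div_le t a
    have h4 : W * (t / a) * a ≤ a * a := by
      calc W * (t / a) * a = W * (a * (t / a)) := by ring
        _ ≤ W * t := Nat.mul_le_mul_left _ h3
        _ ≤ a ^ 2 := h2
        _ = a * a := sq a
    have h5 : W * (t / a) ≤ a := Nat.le_of_mul_le_mul_right h4 ha
    have h6 : a ≤ 2000 * (D * (P * P)) * e := by
      have h7 : a * a ≤ 2000 * (D * (P * P)) * e * a := by
        calc a * a = a ^ 2 := (sq a).symm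
          _ ≤ P * l1 := hl1
          _ ≤ P * (2 * (1000 * D * b * e)) := Nat.mul_le_mul_left _ he4
          _ ≤ P * (2 * (1000 * D * (P * a) * e)) :=
              Nat.mul_le_mul_left _ (Nat.mul_le_mul_left _ (Nat.mul_le_mul_right _
                (Nat.mul_le_mul_left _ hbP)))
          _ = 2000 * (D * (P * P)) * e * a := by ring
      exact Nat.le_of_mul_le_mul_right h7 ha
    have h8 : 2000 * (D * (P * P)) * (8 * (t / a)) ≤ 2000 * (D * (P * P)) * e := by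
      calc 2000 * (D * (P * P)) * (8 * (t / a)) = 16000 * (D * (P * P)) * (t / a) := by ring
        _ ≤ W * (t / a) := Nat.mul_le_mul_right _ (by omega)
        _ ≤ a := h5
        _ ≤ 2000 * (D * (P * P)) * e := h6
    exact Nat.le_of_mul_le_mul_left h8 (by omega)
  refine ⟨by omega, ?_⟩
  have hbe : 7000 * (e * b) ≤ l1 := by
    refine le_trans ?_ he1
    calc 7000 * (e * b) = 1000 * 7 * b * e := by ring
      _ ≤ 1000 * D * b * e :=
          Nat.mul_le_mul_right _ (Nat.mul_le_mul_right _ (Nat.mul_le_mul_left _ hD))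
  have heb : e ≤ e * b := Nat.le_mul_of_pos_right _ hb
  have i1 : 8000 * (n * (n / m)) ≤ l1 := by
    refine le_trans ?_ hN0
    calc 8000 * (n * (n / m)) ≤ 8000 * (b * (n / m)) :=
          Nat.mul_le_mul_left _ (Nat.mul_le_mul_right _ hnb)
      _ ≤ 8000 * (D * (b * (n / m))) :=
          Nat.mul_le_mul_left _ (Nat.le_mul_of_pos_left _ (by omega))
      _ = 8000 * D * b * (n / m) := by ring
  have i2 : 2 * e * h ≤ 16 * t + 4 * e := by
    calc 2 * e * h ≤ 2 * (8 * R) * h := Nat.mul_le_mul_right _ (Nat.mul_le_mul_left _ hR2)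
      _ = 16 * (R * h) := by ring
      _ ≤ 16 * (t + R) := Nat.mul_le_mul_left _ hh2
      _ ≤ 16 * t + 4 * e := by omega
  have i3 : 1000 * t ≤ l1 := by
    have h4 : P * (1000 * t) ≤ P * l1 := by
      calc P * (1000 * t) = 1000 * P * t := by ring
        _ ≤ W * t := Nat.mul_le_mul_right _ (by omega)
        _ ≤ a ^ 2 := h2
        _ ≤ P * l1 := hl1
    exact Nat.le_of_mul_le_mul_left h4 hP
  have i4 : K * (5 * a - 6) ≤ 10 * (e * b) + 10 * a := by
    calc K * (5 * a - 6) ≤ K * (5 * a) := Nat.mul_le_mul_left _ (by omega)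
      _ = 5 * (a * K) := by ring
      _ ≤ 5 * (2 * (e * b) + 2 * a) := Nat.mul_le_mul_left _ hK3
      _ = 10 * (e * b) + 10 * a := by ring
  have i5 : 1000 * a ≤ l1 := by
    have h4 : P * (1000 * a) ≤ P * l1 := by
      calc P * (1000 * a) = 1000 * P * a := by ring
        _ ≤ a * a := Nat.mul_le_mul_right _ (by omega)
        _ = a ^ 2 := (sq a).symm
        _ ≤ P * l1 := hl1
    exact Nat.le_of_mul_le_mul_left h4 hP
  generalize n * (n / m) = w1 at *
  generalize 2 * e * h = w2 at *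
  generalize K * (5 * a - 6) = w3 at *
  generalize e * b = w4 at *
  omega

theorem numbersS (a b t l1 l2 P D W : ℕ) (ha : 0 < a) (hP : 1 ≤ P) (hD : 7 ≤ D)
    (hDb : (D + 8) * a ≤ D * b) (hbP : b ≤ P * a) (hl1 : a ^ 2 ≤ P * l1)
    (hl1' : 2 * l1 ≤ a * b) (hl2 : l2 ≤ t)
    (hW : 100000000 * (D * D * (P * P)) ≤ W) (hWa : W ≤ a) (h2 : W * t ≤ a ^ 2)
    (h3 : D * (8000 * D + 1) * (3604480 * (2 * D * (8000 * D + 1))) ^ (D + 6) * b ^ 3 ≤
      l1 * t) :
    ∃ e n m X h R K : ℕ, 2 * e ≤ a ∧ 12 < a ∧ 1 ≤ m ∧ 1 ≤ X ∧ 1 ≤ h ∧ a ≤ n ∧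
      n + 2 * h + 9 * K = b ∧ e * b ≤ K * (a - 12) ∧ (m * (X + 1) + X) * n ≤ t ∧
      t / n + m * (X + 1) + 1 ≤ t / a ∧ l2 ≤ h * R ∧ t / a + n / m + 2 + R ≤ e ∧
      n * (n / m) + 2 * e * h + l2 + K * (5 * a - 6) + 9 * a ≤ l1 ∧
      2 * a ^ 3 ≤ (l1 + a) * (t + a) ∧
      (55 * ((l1 + a) * (t + a))) ^ a * (a * b + 1) ^ 3 ≤ a ^ (3 * a) * X ^ n := by
  have hab : a ≤ b := by
    have h4 : D * a ≤ D * b := by
      have : (D + 8) * a = D * a + 8 * a := by ring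
      omega
    exact Nat.le_of_mul_le_mul_left h4 (by omega)
  have hDD : D ≤ D * D := Nat.le_mul_of_pos_left _ (by omega)
  have hPP : 1 ≤ P * P := Nat.mul_pos hP hP
  have hDP : D * D ≤ D * D * (P * P) := Nat.le_mul_of_pos_right _ hPP
  have hl0 : 0 < l1 := by
    rcases Nat.eq_zero_or_pos l1 with h4 | h4
    · exfalso
      rw [h4, mul_zero] at hl1
      have : 0 < a ^ 2 := Nat.pow_pos ha
      omega
    · exact h4
  have hlb : l1 ≤ b ^ 2 := by
    have h4 : a * b ≤ b * b := Nat.mul_le_mul_right _ hab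
    rw [sq]
    omega
  obtain ⟨e, R, h, K, he1, he4, he3, hea, hR1, hR2, hh0, hh1, hh2, hK1, hK3, hK5, hh5⟩ :=
    partS1 a b t l1 l2 P D W ha hP hD hab hbP hl1 hl1' hl2 hW hWa h2
  obtain ⟨n, hn, hn2, han, hbn⟩ := partS2 a b D h K hD hDb (by omega) hK5 hh5
  have hnb : n ≤ b := by omega
  generalize hZ : 2 * D * (8000 * D + 1) = Z at *
  have hZ1 : 1 ≤ Z := by
    rw [← hZ]
    exact Nat.mul_pos (by omega) (by omega)
  obtain ⟨m, X, hm1, hm2, hX0, hXV, hT, hX9, hX10, hDbt⟩ :=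
    partS3 a b t l1 D ((3604480 * Z) ^ (D + 6)) n ha hD hab hl0
      (Nat.one_le_pow _ _ (by omega)) hlb h3 (by omega) hn2 hnb
  rw [hZ] at hT
  obtain ⟨hc12, hc13⟩ := condS a b t l1 l2 P D W n m e R h K ha hP hD hbP hl1 hl2 hW hWa h2
    hl0 hab hnb he1 he4 he3 hR1 hR2 hh2 hK3 hm2
  have hbt : b ≤ D * b := Nat.le_mul_of_pos_left _ (by omega)
  have hal : a ≤ l1 := by
    have : a ≤ K * (5 * a - 6) + 9 * a := by omega
    omega
  refine ⟨e, n, m, X, h, R, K, hea, by omega, hm1, hX0, hh0, han, hn, hK1, hX9, hX10, hh1,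
    hc12, hc13, ?_, ?_⟩
  · have h4 : 2 * a ^ 3 ≤ l1 * t := by
      refine le_trans ?_ h3
      have h5 : a ^ 3 ≤ b ^ 3 := Nat.pow_le_pow_left hab 3
      refine Nat.mul_le_mul ?_ h5
      calc 2 ≤ D := by omega
        _ ≤ D * (8000 * D + 1) := Nat.le_mul_of_pos_right _ (by omega)
        _ ≤ D * (8000 * D + 1) * (3604480 * Z) ^ (D + 6) :=
            Nat.le_mul_of_pos_right _ (Nat.one_le_pow _ _ (by omega))
    exact le_trans h4 (Nat.mul_le_mul (by omega) (by omega))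
  · exact growthS a b n t l1 D Z X (by omega) hZ1 hX0 hab hal (by omega) hT hn2 han hbn hXV

/-- **(S4)** two long rows and an arbitrary tail, `λ_2 D_2 ≥ C b ^ 3`. -/
theorem twoLongS (hC : CoreS) : TwoLongS := by
  obtain ⟨a₀, hC⟩ := hC
  intro δ hδ
  obtain ⟨D, hD⟩ : ∃ D : ℕ, D = ⌈8 / δ⌉₊ + 7 := ⟨_, rfl⟩
  have hD7 : 7 ≤ D := by omega
  have hDδ : 8 ≤ (D : ℝ) * δ := by
    have h1 : 8 / δ ≤ (D : ℝ) := by
      refine le_trans (Nat.le_ceil _) ?_
      exact_mod_cast (by omega : ⌈8 / δ⌉₊ ≤ D)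
    rwa [div_le_iff₀ hδ] at h1
  obtain ⟨A, hA⟩ : ∃ A : ℕ,
    A = D * (8000 * D + 1) * (3604480 * (2 * D * (8000 * D + 1))) ^ (D + 6) := ⟨_, rfl⟩
  have hA0 : (0 : ℝ) ≤ A := Nat.cast_nonneg A
  have hD0 : (0 : ℝ) ≤ D := Nat.cast_nonneg D
  have ha₀ : (0 : ℝ) ≤ a₀ := Nat.cast_nonneg a₀
  have hDD0 : (0 : ℝ) ≤ 400000000 * (D * D) := by positivity
  refine ⟨400000000 * (D * D) + A + 2 * a₀ + 1, 2, by linarith, ?_⟩
  generalize hCC : (400000000 : ℝ) * (D * D) + A + 2 * a₀ + 1 = C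
  intro a b k lam Λ hanti hsum hΛ hCa hab hbP hl1 h3 h2
  have hΛ2 : 1 ≤ Λ ^ 2 := one_le_pow₀ hΛ
  have hC1 : 1 ≤ C := by linarith
  have hC0 : 0 ≤ C := by linarith
  have hCΛ : C ≤ C * Λ ^ 2 := le_mul_of_one_le_right hC0 hΛ2
  have ha1 : (1 : ℝ) ≤ a := by linarith
  have ha : 0 < a := by
    have : (0 : ℝ) < a := by linarith
    exact_mod_cast this
  have haR : (0 : ℝ) ≤ a := by linarith
  obtain ⟨P, hP⟩ : ∃ P : ℕ, P = ⌈Λ⌉₊ := ⟨_, rfl⟩
  have hP1 : 1 ≤ P := by rw [hP]; exact Nat.ceil_pos.mpr (by linarith)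
  have hP2 : Λ ≤ (P : ℝ) := by rw [hP]; exact Nat.le_ceil _
  have hP3 : (P : ℝ) ≤ 2 * Λ := by
    have h4 : (P : ℝ) < Λ + 1 := by rw [hP]; exact Nat.ceil_lt_add_one (by linarith)
    linarith
  obtain ⟨W, hW⟩ : ∃ W : ℕ, W = 100000000 * (D * D * (P * P)) := ⟨_, rfl⟩
  have hWC : (W : ℝ) ≤ C * Λ ^ 2 := by
    have h4 : (P : ℝ) * P ≤ 4 * Λ ^ 2 := by
      calc (P : ℝ) * P ≤ (2 * Λ) * (2 * Λ) :=
            mul_le_mul hP3 hP3 (Nat.cast_nonneg P) (by linarith)
        _ = 4 * Λ ^ 2 := by ring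
    have h5 : (W : ℝ) = 100000000 * (D * D * (P * P)) := by rw [hW]; push_cast; ring
    rw [h5]
    calc (100000000 : ℝ) * (D * D * (P * P)) = 100000000 * (D * D) * (P * P) := by ring
      _ ≤ 100000000 * (D * D) * (4 * Λ ^ 2) :=
          mul_le_mul_of_nonneg_left h4 (by positivity)
      _ = 400000000 * (D * D) * Λ ^ 2 := by ring
      _ ≤ C * Λ ^ 2 := mul_le_mul_of_nonneg_right (by linarith) (by linarith)
  have ht0 : (0 : ℝ) ≤ dn2 lam := Nat.cast_nonneg _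
  have k1 : W ≤ a := by
    have h4 : (W : ℝ) ≤ a := le_trans hWC hCa
    exact_mod_cast h4
  have k2 : W * dn2 lam ≤ a ^ 2 := by
    have h4 : (W : ℝ) * dn2 lam ≤ (a : ℝ) ^ 2 :=
      le_trans (mul_le_mul_of_nonneg_right hWC ht0) h2
    exact_mod_cast h4
  have k3 : b ≤ P * a := by
    have h4 : (b : ℝ) ≤ P * a := le_trans hbP (mul_le_mul_of_nonneg_right hP2 haR)
    exact_mod_cast h4
  have k4 : a ^ 2 ≤ P * lam 1 := by
    have h4 : (a : ℝ) ^ 2 ≤ P * lam 1 :=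
      le_trans hl1 (mul_le_mul_of_nonneg_right hP2 (Nat.cast_nonneg _))
    exact_mod_cast h4
  have k5 : (D + 8) * a ≤ D * b := by
    have h4 : ((D : ℝ) + 8) * a ≤ D * b := by
      calc ((D : ℝ) + 8) * a ≤ (D + D * δ) * a :=
            mul_le_mul_of_nonneg_right (by linarith) haR
        _ = D * ((1 + δ) * a) := by ring
        _ ≤ D * b := mul_le_mul_of_nonneg_left hab hD0
    exact_mod_cast h4
  have k6 : 2 * a₀ ≤ a := by
    have h4 : 2 * (a₀ : ℝ) ≤ a := by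
      have : 2 * (a₀ : ℝ) ≤ C := by rw [← hCC]; linarith
      linarith
    exact_mod_cast h4
  have k7 : lam 2 ≤ dn2 lam :=
    Finset.single_le_sum (f := fun i : Fin (k + 1) => lam i.succ.succ)
      (fun _ _ => Nat.zero_le _) (Finset.mem_univ 0)
  have h10 : lam 1 ≤ lam 0 := hanti (Fin.zero_le 1)
  have k8 : 2 * lam 1 ≤ a * b := by
    rw [← hsum, Fin.sum_univ_succ, Fin.sum_univ_succ]
    have h5 : lam (Fin.succ 0) = lam 1 := rfl
    rw [h5]
    omega
  have k9 : D * (8000 * D + 1) * (3604480 * (2 * D * (8000 * D + 1))) ^ (D + 6) * b ^ 3 ≤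
      lam 1 * dn2 lam := by
    rw [← hA]
    have h4 : (A : ℝ) * (b : ℝ) ^ 3 ≤ (lam 1 : ℝ) * dn2 lam := by
      refine le_trans (mul_le_mul_of_nonneg_right ?_ (by positivity)) h3
      linarith
    exact_mod_cast h4
  obtain ⟨e, n, m, X, h, R, K, g1, g2, g3, g4, g5, g6, g7, g8, g9, g10, g11, g12, g13, g14,
    g15⟩ := numbersS a b (dn2 lam) (lam 1) (lam 2) P D W ha hP1 hD7 k5 k3 k4 k8 k7
      (le_of_eq hW.symm) k1 k2 k9
  exact hC a b k e n m X h R K lam h10 hsum (by omega) g2 g3 g4 g5 g6 g7 g8 g9 g10 g11 g12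
    g13 g14 g15

end Vale.Agent.P181.H382.H820
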