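import Vale.Agent.P181.H382.H112.DefsU
import Vale.Agent.P181.H382.H382.UDefs
import Vale.Agent.P181.H382.H820.S4

set_option autoImplicit false

/-!
# P181, LSU: (U1) = (U4), the numbers, from `numbersS` with `D = 8 b / (b - a)`
-/

namespace Vale.Agent.P181.H382.H820

open Vale.Agent.P181.H280 (plethMult)
open Vale.Agent.P181.TL (dn2)
open Vale.Agent.P181.H382.H112 (CoreS)

/-- the constant of `numbersS` against `(2 x) ^ (C x)`. -/
theorem constU (D : ℕ) (x ρ : ℝ) (hx : 1 ≤ x) (hD1 : 1 ≤ D) (hD : (D : ℝ) ≤ 8 * x + 8)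
    (hρ : 0 < ρ) (h : 1035 * x * Real.log (2 * x) ≤ Real.log ρ) :
    ((D * (8000 * D + 1) * (3604480 * (2 * D * (8000 * D + 1))) ^ (D + 6) : ℕ) : ℝ) ≤ ρ := by
  have hDR : (1 : ℝ) ≤ D := by exact_mod_cast hD1
  have hx0 : 0 < x := by linarith
  have hL : 0 ≤ Real.log (2 * x) := Real.log_nonneg (by linarith)
  have h1 : ((D * (8000 * D + 1) * (3604480 * (2 * D * (8000 * D + 1))) ^ (D + 6) : ℕ) : ℝ) ≤
      (100000000000 * (D : ℝ) ^ 2) ^ (D + 7) := by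
    push_cast
    have h2 : (D : ℝ) * (8000 * D + 1) ≤ 8001 * (D : ℝ) ^ 2 := by nlinarith
    have h3 : (D : ℝ) * (8000 * D + 1) ≤ 100000000000 * (D : ℝ) ^ 2 := by nlinarith
    have h4 : 3604480 * (2 * (D : ℝ) * (8000 * D + 1)) ≤ 100000000000 * (D : ℝ) ^ 2 := by
      nlinarith
    have h5 : 0 ≤ 3604480 * (2 * (D : ℝ) * (8000 * D + 1)) := by positivity
    calc (D : ℝ) * (8000 * D + 1) * (3604480 * (2 * D * (8000 * D + 1))) ^ (D + 6)
        ≤ (100000000000 * (D : ℝ) ^ 2) * (100000000000 * (D : ℝ) ^ 2) ^ (D + 6) :=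
          mul_le_mul h3 (pow_le_pow_left₀ h5 h4 _) (by positivity) (by positivity)
      _ = (100000000000 * (D : ℝ) ^ 2) ^ (D + 7) := by rw [← pow_succ']
  refine le_trans h1 ?_
  have hpos : 0 < 100000000000 * (D : ℝ) ^ 2 := by positivity
  rw [← Real.log_le_log_iff (pow_pos hpos _) hρ, Real.log_pow]
  refine le_trans ?_ h
  have h6 : 100000000000 * (D : ℝ) ^ 2 ≤ (2 * x) ^ 45 := by
    have h7 : (D : ℝ) ≤ 16 * x := by linarith
    have h8 : (D : ℝ) ^ 2 ≤ 64 * (2 * x) ^ 2 := by nlinarith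
    have h9 : (2 : ℝ) ^ 43 ≤ (2 * x) ^ 43 := pow_le_pow_left₀ (by norm_num) (by linarith) _
    have h10 : (6400000000000 : ℝ) ≤ (2 * x) ^ 43 := le_trans (by norm_num) h9
    calc 100000000000 * (D : ℝ) ^ 2 ≤ 100000000000 * (64 * (2 * x) ^ 2) := by linarith
      _ = 6400000000000 * (2 * x) ^ 2 := by ring
      _ ≤ (2 * x) ^ 43 * (2 * x) ^ 2 := mul_le_mul_of_nonneg_right h10 (by positivity)
      _ = (2 * x) ^ 45 := by rw [← pow_add]
  have h11 : Real.log (100000000000 * (D : ℝ) ^ 2) ≤ 45 * Real.log (2 * x) := by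
    have h12 := Real.log_le_log hpos h6
    rw [Real.log_pow] at h12
    exact_mod_cast h12
  have h13 : ((D + 7 : ℕ) : ℝ) ≤ 23 * x := by
    push_cast
    linarith
  calc ((D + 7 : ℕ) : ℝ) * Real.log (100000000000 * (D : ℝ) ^ 2)
      ≤ ((D + 7 : ℕ) : ℝ) * (45 * Real.log (2 * x)) :=
        mul_le_mul_of_nonneg_left h11 (Nat.cast_nonneg _)
    _ ≤ 23 * x * (45 * Real.log (2 * x)) :=
        mul_le_mul_of_nonneg_right h13 (by positivity)
    _ = 1035 * x * Real.log (2 * x) := by ring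

/-- **(U1)** two long rows and an arbitrary tail, every `b > a`. -/
theorem twoLongSU (hC : CoreS) : U.TwoLongSU := by
  obtain ⟨a₀, hC⟩ := hC
  have ha₀ : (0 : ℝ) ≤ a₀ := Nat.cast_nonneg a₀
  refine ⟨102400000000 + 2 * a₀, 4, by linarith, ?_⟩
  generalize hCC : (102400000000 : ℝ) + 2 * a₀ = C
  intro a b k lam Λ hanti hsum hab' hΛ hCa hbP hbg hl1 h2 h3
  have hΛ4 : 1 ≤ Λ ^ 4 := one_le_pow₀ hΛ
  have hC1 : 102400000000 ≤ C := by linarith
  have hC0 : 0 ≤ C := by linarith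
  have hCΛ : C ≤ C * Λ ^ 4 := le_mul_of_one_le_right hC0 hΛ4
  have ha1 : (1 : ℝ) ≤ a := by linarith
  have ha : 0 < a := by
    have : (0 : ℝ) < a := by linarith
    exact_mod_cast this
  have haR : (0 : ℝ) ≤ a := by linarith
  have habR : (a : ℝ) < b := by exact_mod_cast hab'
  have hg : 0 < (b : ℝ) - a := by linarith
  have hbR : 0 < (b : ℝ) := by linarith
  obtain ⟨x, hx⟩ : ∃ x : ℝ, x = b / ((b : ℝ) - a) := ⟨_, rfl⟩
  have hxg : x * ((b : ℝ) - a) = b := by rw [hx]; field_simp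
  have hx1 : 1 ≤ x := by
    rw [hx, one_le_div hg]
    linarith
  have hxΛ : x ≤ Λ := by
    rw [hx, div_le_iff₀ hg]
    exact hbg
  obtain ⟨D, hD⟩ : ∃ D : ℕ, D = ⌈8 * x⌉₊ + 7 := ⟨_, rfl⟩
  have hD7 : 7 ≤ D := by omega
  have hDx : 8 * x ≤ (D : ℝ) := by
    refine le_trans (Nat.le_ceil _) ?_
    exact_mod_cast (by omega : ⌈8 * x⌉₊ ≤ D)
  have hDx2 : (D : ℝ) ≤ 8 * x + 8 := by
    have h4 : ((⌈8 * x⌉₊ : ℕ) : ℝ) < 8 * x + 1 := Nat.ceil_lt_add_one (by linarith)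
    rw [hD]
    push_cast
    linarith
  have hD0 : (0 : ℝ) ≤ D := Nat.cast_nonneg D
  obtain ⟨P, hP⟩ : ∃ P : ℕ, P = ⌈Λ⌉₊ := ⟨_, rfl⟩
  have hP1 : 1 ≤ P := by rw [hP]; exact Nat.ceil_pos.mpr (by linarith)
  have hP2 : Λ ≤ (P : ℝ) := by rw [hP]; exact Nat.le_ceil _
  have hP3 : (P : ℝ) ≤ 2 * Λ := by
    have h4 : (P : ℝ) < Λ + 1 := by rw [hP]; exact Nat.ceil_lt_add_one (by linarith)
    linarith
  obtain ⟨W, hW⟩ : ∃ W : ℕ, W = 100000000 * (D * D * (P * P)) := ⟨_, rfl⟩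
  have hWC : (W : ℝ) ≤ C * Λ ^ 4 := by
    have h4 : (P : ℝ) * P ≤ 4 * Λ ^ 2 := by
      calc (P : ℝ) * P ≤ (2 * Λ) * (2 * Λ) :=
            mul_le_mul hP3 hP3 (Nat.cast_nonneg P) (by linarith)
        _ = 4 * Λ ^ 2 := by ring
    have hD16 : (D : ℝ) ≤ 16 * Λ := by linarith
    have h6 : (D : ℝ) * D ≤ 256 * Λ ^ 2 := by
      calc (D : ℝ) * D ≤ (16 * Λ) * (16 * Λ) :=
            mul_le_mul hD16 hD16 hD0 (by linarith)
        _ = 256 * Λ ^ 2 := by ring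
    have h5 : (W : ℝ) = 100000000 * (D * D * (P * P)) := by rw [hW]; push_cast; ring
    rw [h5]
    calc (100000000 : ℝ) * (D * D * (P * P))
        ≤ 100000000 * ((256 * Λ ^ 2) * (4 * Λ ^ 2)) := by
          refine mul_le_mul_of_nonneg_left ?_ (by norm_num)
          exact mul_le_mul h6 h4 (by positivity) (by positivity)
      _ = 102400000000 * Λ ^ 4 := by ring
      _ ≤ C * Λ ^ 4 := mul_le_mul_of_nonneg_right hC1 (by linarith)
  have ht0 : (0 : ℝ) ≤ dn2 lam := Nat.cast_nonneg _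
  have k1 : W ≤ a := by
    have h4 : (W : ℝ) ≤ a := le_trans hWC hCa
    exact_mod_cast h4
  have k2 : W * dn2 lam ≤ a ^ 2 := by
    have h4 : (W : ℝ) * dn2 lam ≤ (a : ℝ) ^ 2 :=
      le_trans (mul_le_mul_of_nonneg_right hWC ht0) h2
    exact_mod_cast h4
  have k3 : b ≤ P * a := by
    have h4 : (b : ℝ) ≤ P * a := le_trans hbP (mul_le_mul_of_nonneg_right hP2 haR)
    exact_mod_cast h4
  have k4 : a ^ 2 ≤ P * lam 1 := by
    have h4 : (a : ℝ) ^ 2 ≤ P * lam 1 :=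
      le_trans hl1 (mul_le_mul_of_nonneg_right hP2 (Nat.cast_nonneg _))
    exact_mod_cast h4
  have k5 : (D + 8) * a ≤ D * b := by
    have h4 : ((D : ℝ) + 8) * a ≤ D * b := by
      have h5 : 8 * (b : ℝ) ≤ D * ((b : ℝ) - a) := by
        calc 8 * (b : ℝ) = 8 * x * ((b : ℝ) - a) := by rw [mul_assoc, hxg]
          _ ≤ D * ((b : ℝ) - a) := mul_le_mul_of_nonneg_right hDx hg.le
      nlinarith
    exact_mod_cast h4
  have k6 : 2 * a₀ ≤ a := by
    have h4 : 2 * (a₀ : ℝ) ≤ a := by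
      have : 2 * (a₀ : ℝ) ≤ C := by rw [← hCC]; linarith
      linarith
    exact_mod_cast h4
  have k7 : lam 2 ≤ dn2 lam :=
    Finset.single_le_sum (f := fun i : Fin (k + 1) => lam i.succ.succ)
      (fun _ _ => Nat.zero_le _) (Finset.mem_univ 0)
  have h10 : lam 1 ≤ lam 0 := hanti (Fin.zero_le 1)
  have k8 : 2 * lam 1 ≤ a * b := by
    rw [← hsum, Fin.sum_univ_succ, Fin.sum_univ_succ]
    have h5 : lam (Fin.succ 0) = lam 1 := rfl
    rw [h5]
    omega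
  have hlog2 : 0 < Real.log (2 * x) := Real.log_pos (by linarith)
  have h2x : 2 * (b : ℝ) / ((b : ℝ) - a) = 2 * x := by rw [hx]; ring
  rw [h2x] at h3
  have hb3 : (0 : ℝ) < (b : ℝ) ^ 3 := by positivity
  obtain ⟨ρ, hρ⟩ : ∃ ρ : ℝ, ρ = (lam 1 : ℝ) * dn2 lam / (b : ℝ) ^ 3 := ⟨_, rfl⟩
  rw [← hρ] at h3
  have hlogρ : C * x * Real.log (2 * x) ≤ Real.log ρ := by
    have h4 : ((b : ℝ) - a) * (C * x * Real.log (2 * x)) ≤ ((b : ℝ) - a) * Real.log ρ := by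
      calc ((b : ℝ) - a) * (C * x * Real.log (2 * x))
          = C * (x * ((b : ℝ) - a)) * Real.log (2 * x) := by ring
        _ = C * b * Real.log (2 * x) := by rw [hxg]
        _ ≤ ((b : ℝ) - a) * Real.log ρ := h3
    exact le_of_mul_le_mul_left h4 hg
  have hρ0 : 0 < ρ := by
    have h4 : 0 ≤ ρ := by rw [hρ]; positivity
    rcases h4.lt_or_eq with h5 | h5
    · exact h5
    · exfalso
      rw [← h5, Real.log_zero] at hlogρ
      have : 0 < C * x * Real.log (2 * x) := by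
        have : 0 < C := by linarith
        positivity
      linarith
  have h1035 : 1035 * x * Real.log (2 * x) ≤ Real.log ρ := by
    refine le_trans ?_ hlogρ
    refine mul_le_mul_of_nonneg_right ?_ hlog2.le
    exact mul_le_mul_of_nonneg_right (by linarith) (by linarith)
  have k9 : D * (8000 * D + 1) * (3604480 * (2 * D * (8000 * D + 1))) ^ (D + 6) * b ^ 3 ≤
      lam 1 * dn2 lam := by
    have h4 := constU D x ρ hx1 (by omega) hDx2 hρ0 h1035
    rw [hρ, le_div_iff₀ hb3] at h4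
    exact_mod_cast h4
  obtain ⟨e, n, m, X, h, R, K, g1, g2, g3, g4, g5, g6, g7, g8, g9, g10, g11, g12, g13, g14,
    g15⟩ := numbersS a b (dn2 lam) (lam 1) (lam 2) P D W ha hP1 hD7 k5 k3 k4 k8 k7
      (le_of_eq hW.symm) k1 k2 k9
  exact hC a b k e n m X h R K lam h10 hsum (by omega) g2 g3 g4 g5 g6 g7 g8 g9 g10 g11 g12
    g13 g14 g15

/-- **(U4)** the same in the order of `H112.RhoP`. -/
theorem rhoP (hC : CoreS) : H112.RhoP := by
  obtain ⟨C, c, hC1, h⟩ := twoLongSU hC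
  exact ⟨C, c, hC1, fun a b k lam Λ h1 h2 h3 h4 h5 h6 h7 h8 h9 h10 =>
    h a b k lam Λ h1 h2 h5 h3 h4 h6 h7 h8 h9 h10⟩

end Vale.Agent.P181.H382.H820
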