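import Vale.Agent.P181.H382.H112.Defs

set_option autoImplicit false

/-!
# P181, LT: the line LS with `b₀ ≤ b` letters in the lower bound (helper540, #20378): the literals

`b ≥ 4 a`, `λ_2 ≤ a ^ 2`, `λ_2 D_2 ≥ C a ^ 3`.
-/

namespace Vale.Agent.P181.H382.H820

open Vale.Agent.P181.H280 (plethMult)
open Vale.Agent.P181.TL (dn2)

/-- **(T3)** the core: `CoreS` with `n + 2 h + 9 K = b₀ ≤ b`. -/
def CoreT : Prop := ∃ a₀ : ℕ, ∀ (a b b₀ k e n m X h R K : ℕ) (lam : Fin (k + 3) → ℕ),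
  ∑ i, lam i = a * b → b₀ ≤ b → lam 1 + a * (b - b₀) ≤ lam 0 → a₀ + e ≤ a → 12 < a →
  1 ≤ m → 1 ≤ X → 1 ≤ h → a ≤ n →
  n + 2 * h + 9 * K = b₀ → e * b₀ ≤ K * (a - 12) →
  (m * (X + 1) + X) * n ≤ dn2 lam → dn2 lam / n + m * (X + 1) + 1 ≤ dn2 lam / a →
  lam 2 ≤ h * R → dn2 lam / a + n / m + 2 + R ≤ e →
  n * (n / m) + 2 * e * h + lam 2 + K * (5 * a - 6) + 9 * a ≤ lam 1 →
  2 * a ^ 3 ≤ (lam 1 + a) * (dn2 lam + a) →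
  (55 * ((lam 1 + a) * (dn2 lam + a))) ^ a * (a * b₀ + 1) ^ 3 ≤ a ^ (3 * a) * X ^ n →
  plethMult a b (k + 3) lam ≤ plethMult b a (k + 3) lam

/-- **(T4)** the numbers, from `CoreT` with `b₀ = 4 a`. -/
def TwoLongT : Prop := ∃ (C : ℝ) (c : ℕ), 1 ≤ C ∧
  ∀ (a b k : ℕ) (lam : Fin (k + 3) → ℕ) (Λ : ℝ), ∑ i, lam i = a * b → 4 * a ≤ b →
  1 ≤ Λ → C * Λ ^ c ≤ a → lam 1 ≤ a ^ 2 → (a : ℝ) ^ 2 ≤ Λ * lam 1 →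
  C * Λ ^ c * dn2 lam ≤ (a : ℝ) ^ 2 → C * (a : ℝ) ^ 3 ≤ (lam 1 : ℝ) * dn2 lam →
  plethMult a b (k + 3) lam ≤ plethMult b a (k + 3) lam

end Vale.Agent.P181.H382.H820
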