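import Vale.Agent.P181.H382.H820.TDefs
import Vale.Agent.P181.H382.H820.S4

set_option autoImplicit false

/-!
# P181, LT: (T4), the numbers, from `numbersS` with `b₀ = 4 a`, `D = 7`
-/

namespace Vale.Agent.P181.H382.H820

open Vale.Agent.P181.H280 (plethMult)
open Vale.Agent.P181.TL (dn2)

theorem twoLongT (hC : CoreT) : TwoLongT := by
  obtain ⟨a₀, hC⟩ := hC
  obtain ⟨A, hA⟩ : ∃ A : ℕ,
    A = 7 * (8000 * 7 + 1) * (3604480 * (2 * 7 * (8000 * 7 + 1))) ^ (7 + 6) := ⟨_, rfl⟩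
  have hA0 : (0 : ℝ) ≤ A := Nat.cast_nonneg A
  have ha₀ : (0 : ℝ) ≤ a₀ := Nat.cast_nonneg a₀
  refine ⟨320000000000 + 64 * A + 2 * a₀, 2, by linarith, ?_⟩
  generalize hCC : (320000000000 : ℝ) + 64 * A + 2 * a₀ = C
  intro a b k lam Λ hsum hab hΛ hCa hla hl1 h2 h3
  have hΛ2 : 1 ≤ Λ ^ 2 := one_le_pow₀ hΛ
  have hC1 : 320000000000 ≤ C := by linarith
  have hC0 : 0 ≤ C := by linarith
  have hCΛ : C ≤ C * Λ ^ 2 := le_mul_of_one_le_right hC0 hΛ2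
  have ha1 : (1 : ℝ) ≤ a := by linarith
  have ha : 0 < a := by
    have : (0 : ℝ) < a := by linarith
    exact_mod_cast this
  have haR : (0 : ℝ) ≤ a := by linarith
  obtain ⟨P, hP⟩ : ∃ P : ℕ, P = 4 * ⌈Λ⌉₊ := ⟨_, rfl⟩
  have hc1 : 1 ≤ ⌈Λ⌉₊ := Nat.ceil_pos.mpr (by linarith)
  have hP1 : 4 ≤ P := by omega
  have hPR : (P : ℝ) = 4 * ((⌈Λ⌉₊ : ℕ) : ℝ) := by rw [hP]; push_cast; ring
  have hc2 : Λ ≤ ((⌈Λ⌉₊ : ℕ) : ℝ) := Nat.le_ceil _
  have hP2 : Λ ≤ (P : ℝ) := by rw [hPR]; linarith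
  have hP3 : (P : ℝ) ≤ 8 * Λ := by
    have h4 : ((⌈Λ⌉₊ : ℕ) : ℝ) < Λ + 1 := Nat.ceil_lt_add_one (by linarith)
    rw [hPR]
    linarith
  obtain ⟨W, hW⟩ : ∃ W : ℕ, W = 100000000 * (7 * 7 * (P * P)) := ⟨_, rfl⟩
  have hWC : (W : ℝ) ≤ C * Λ ^ 2 := by
    have h4 : (P : ℝ) * P ≤ 64 * Λ ^ 2 := by
      calc (P : ℝ) * P ≤ (8 * Λ) * (8 * Λ) :=
            mul_le_mul hP3 hP3 (Nat.cast_nonneg P) (by linarith)
        _ = 64 * Λ ^ 2 := by ring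
    have h5 : (W : ℝ) = 4900000000 * (P * P) := by rw [hW]; push_cast; ring
    rw [h5]
    calc (4900000000 : ℝ) * (P * P) ≤ 4900000000 * (64 * Λ ^ 2) :=
          mul_le_mul_of_nonneg_left h4 (by norm_num)
      _ = 313600000000 * Λ ^ 2 := by ring
      _ ≤ C * Λ ^ 2 := mul_le_mul_of_nonneg_right (by linarith) (by linarith)
  have ht0 : (0 : ℝ) ≤ dn2 lam := Nat.cast_nonneg _
  have k1 : W ≤ a := by
    have h4 : (W : ℝ) ≤ a := le_trans hWC hCa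
    exact_mod_cast h4
  have k2 : W * dn2 lam ≤ a ^ 2 := by
    have h4 : (W : ℝ) * dn2 lam ≤ (a : ℝ) ^ 2 :=
      le_trans (mul_le_mul_of_nonneg_right hWC ht0) h2
    exact_mod_cast h4
  have k3 : 4 * a ≤ P * a := Nat.mul_le_mul_right _ hP1
  have k4 : a ^ 2 ≤ P * lam 1 := by
    have h4 : (a : ℝ) ^ 2 ≤ P * lam 1 :=
      le_trans hl1 (mul_le_mul_of_nonneg_right hP2 (Nat.cast_nonneg _))
    exact_mod_cast h4
  have k5 : (7 + 8) * a ≤ 7 * (4 * a) := by omega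
  have k6 : 2 * a₀ ≤ a := by
    have h4 : 2 * (a₀ : ℝ) ≤ a := by
      have : 2 * (a₀ : ℝ) ≤ C := by rw [← hCC]; linarith
      linarith
    exact_mod_cast h4
  have k7 : lam 2 ≤ dn2 lam :=
    Finset.single_le_sum (f := fun i : Fin (k + 1) => lam i.succ.succ)
      (fun _ _ => Nat.zero_le _) (Finset.mem_univ 0)
  have hta : dn2 lam ≤ a ^ 2 := by
    have hW1 : 1 ≤ W := by
      rw [hW]
      have : 1 ≤ P * P := Nat.mul_pos (by omega) (by omega)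
      omega
    exact le_trans (Nat.le_mul_of_pos_left _ hW1) k2
  have h4a : a * (4 * a) = 4 * a ^ 2 := by ring
  have k8 : 2 * lam 1 ≤ a * (4 * a) := by omega
  have hsum3 : lam 0 + (lam 1 + dn2 lam) = a * b := by
    rw [← hsum, Fin.sum_univ_succ, Fin.sum_univ_succ]
    rfl
  have k10 : lam 1 + a * (b - 4 * a) ≤ lam 0 := by
    have h5 : a * (b - 4 * a) + a * (4 * a) = a * b := by
      rw [← mul_add, Nat.sub_add_cancel hab]
    omega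
  have k9 : 7 * (8000 * 7 + 1) * (3604480 * (2 * 7 * (8000 * 7 + 1))) ^ (7 + 6) * (4 * a) ^ 3 ≤
      lam 1 * dn2 lam := by
    rw [← hA]
    have h4 : (A : ℝ) * (4 * (a : ℝ)) ^ 3 ≤ (lam 1 : ℝ) * dn2 lam := by
      refine le_trans ?_ h3
      calc (A : ℝ) * (4 * (a : ℝ)) ^ 3 = 64 * A * (a : ℝ) ^ 3 := by ring
        _ ≤ C * (a : ℝ) ^ 3 := mul_le_mul_of_nonneg_right (by linarith) (by positivity)
    exact_mod_cast h4
  obtain ⟨e, n, m, X, h, R, K, g1, g2, g3, g4, g5, g6, g7, g8, g9, g10, g11, g12, g13, g14,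
    g15⟩ := numbersS a (4 * a) (dn2 lam) (lam 1) (lam 2) P 7 W ha (by omega) (le_refl 7) k5 k3 k4
      k8 k7 (le_of_eq hW.symm) k1 k2 k9
  exact hC a b (4 * a) k e n m X h R K lam hsum hab k10 (by omega) g2 g3 g4 g5 g6 g7 g8 g9 g10
    g11 g12 g13 g14 g15

end Vale.Agent.P181.H382.H820
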